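import Vale.Agent.P217.Deform.Statement

/-!
Automorphisms close to the identity act trivially modulo high powers of the maximal ideal.
-/

namespace Vale.Agent.P217.Deform

noncomputable section

open MvPowerSeries

variable {p n : ℕ} [Fact p.Prime]

/-- If g lifts to an endomorphism of F modulo mE^j then the action of g is trivial modulo
mE^j. -/
theorem actsBy_congr (hn : 1 ≤ n) {F : FormalGroup (E p n)} (hF : IsNice p n F)
    {g : PowerSeries (K p n)} {φ : E p n →ₐ[W p n] E p n} (hact : ActsBy p n F g φ) {j : ℕ}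
    (hj : 1 ≤ j) {ψ0 : PowerSeries (E p n)} (h0 : PowerSeries.constantCoeff ψ0 = 0)
    (hres : PowerSeries.map (res p n) ψ0 = g)
    (hhom : HomEq (F.map (Ideal.Quotient.mk (mE p n ^ j))) (F.map (Ideal.Quotient.mk (mE p n ^ j)))
      (PowerSeries.map (Ideal.Quotient.mk (mE p n ^ j)) ψ0)) (f : E p n) :
    φ f - f ∈ mE p n ^ j := by
  have hcomm := hF.comm
  obtain ⟨hg, hφ, ψ, hψ, hψg⟩ := hact
  obtain ⟨g', hg', hgg', hg'g⟩ := exists_inverse hg
  have hiso := isIso_resInv hg'
  set m := PowerSeries.map (resInv p n) g' with hm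
  have ha : ∀ c : W p n, WittVector.constantCoeff c = 0 →
      algebraMap (W p n) (E p n) c ∈ mE p n := fun c hc => by
    change res p n (MvPowerSeries.C c) = 0
    rw [res_eq, constantCoeff_C, hc]
  set q := Ideal.Quotient.mk (mE p n ^ j)
  -- the solution given by φ
  obtain ⟨θ, hθ, hψθ, hθψ⟩ := exists_inverse hψ
  have hθres : PowerSeries.map (res p n) θ = g' := by
    have h1 := congrArg (PowerSeries.map (res p n)) hθψ
    rw [map_subst_powerSeries _ hψ.1.1, map_X', hψg] at h1
    exact eq_of_inverse hg.1.1 hg'.1.1 h1 hgg'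
  have hsol : Sol F (mE p n) F m j φ θ := by
    refine ⟨hφ, hθ.1.1, map_mE_iff.mpr hθres, ?_⟩
    have := (show HomEq (F.map (φ : E p n →+* E p n)) F θ from hθ.1.2).map hθ.1.1 q
    rwa [map_map'] at this
  -- the trivial solution
  have hu : IsUnit (PowerSeries.coeff 1 ψ0) := isUnit_of_res_ne_zero (by
    rw [← PowerSeries.coeff_map, hres]; exact hg.2.ne_zero)
  set θ0 := ψ0.substInvOfIsUnit hu
  have hθ00 : PowerSeries.constantCoeff θ0 = 0 := PowerSeries.constantCoeff_substInvOfIsUnit ψ0 hu
  have hl : PowerSeries.subst ψ0 θ0 = PowerSeries.X := PowerSeries.subst_substInvOfIsUnit_left ψ0 h0 hu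
  have hθ0res : PowerSeries.map (res p n) θ0 = g' := by
    have h1 := congrArg (PowerSeries.map (res p n)) hl
    rw [map_subst_powerSeries _ h0, map_X', hres] at h1
    exact eq_of_inverse hg.1.1 hg'.1.1 h1 hgg'
  have hsol0 : Sol F (mE p n) F m j (AlgHom.id (W p n) (E p n)) θ0 := by
    refine ⟨fun i => ?_, hθ00, map_mE_iff.mpr hθ0res, ?_⟩
    · change res p n (u p n i) = 0
      simp [res, u]
    have hq0 : PowerSeries.constantCoeff (PowerSeries.map q ψ0) = 0 := by
      rw [← PowerSeries.coeff_zero_eq_constantCoeff_apply, PowerSeries.coeff_map,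
        PowerSeries.coeff_zero_eq_constantCoeff_apply, h0, map_zero]
    obtain ⟨θ', hθ', hr', -⟩ := exists_inverse (G := F.map q) (G' := F.map q)
      (ψ := PowerSeries.map q ψ0) ⟨⟨hq0, hhom⟩, by rw [PowerSeries.coeff_map]; exact hu.map q⟩
    have h1 := congrArg (PowerSeries.map q) hl
    rw [map_subst_powerSeries _ h0, map_X'] at h1
    have he : PowerSeries.map q θ0 = θ' := eq_of_inverse hq0 hθ'.1.1 h1 hr'
    rw [show F.map (q.comp ((AlgHom.id (W p n) (E p n) : E p n →ₐ[W p n] E p n) :
      E p n →+* E p n)) = F.map q from rfl, he]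
    exact hθ'.1.2
  have huniq := (sol_unique hF hn ha hF.comm hiso.2 hj hsol0 hsol).1
  refine algHom_congr φ (AlgHom.id (W p n) (E p n)) (le_refl _) hφ hsol0.1 huniq f

section near_identity

variable {F : FormalGroup (E p n)}

theorem pow_card_K (hn : 1 ≤ n) (k : ℕ) (x : K p n) : x ^ p ^ (n * k) = x := by
  let : Fintype (K p n) := Fintype.ofFinite _
  have hc : Fintype.card (K p n) = p ^ n := by
    rw [← Nat.card_eq_fintype_card]; exact GaloisField.card p n (by omega)
  induction k with
  | zero => simp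
  | succ k ih => rw [Nat.mul_succ, pow_add, pow_mul, ih, ← hc, FiniteField.pow_card]

/-- An endomorphism composed with a power of Frobenius is a power of it. -/
theorem subst_X_pow_eq_pow (hn : 1 ≤ n) (η : PowerSeries (K p n)) (k : ℕ) :
    PowerSeries.subst ((PowerSeries.X : PowerSeries (K p n)) ^ p ^ (n * k)) η =
      η ^ p ^ (n * k) := by
  have hp := (Fact.out : p.Prime)
  have : ExpChar (K p n) p := ExpChar.prime hp
  have h := MvPowerSeries.map_iterateFrobenius_expand p hp.ne_zero
    (η : MvPowerSeries Unit (K p n)) (n * k)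
  have hid : iterateFrobenius (K p n) p (n * k) = RingHom.id _ :=
    RingHom.ext fun x => by rw [iterateFrobenius_def, pow_card_K hn k x]; rfl
  rw [hid, MvPowerSeries.map_id] at h
  exact (by simpa [MvPowerSeries.expand, substAlgHom_apply] using h :
    subst (fun i : Unit => (X i : MvPowerSeries Unit (K p n)) ^ p ^ (n * k))
      (η : MvPowerSeries Unit (K p n)) = (η : MvPowerSeries Unit (K p n)) ^ p ^ (n * k))

theorem res_coeff_one_mulSeries (hn : 1 ≤ n) (hF : IsNice p n F) :
    PowerSeries.coeff 1 (mulSeries F p) ∈ mE p n := by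
  have hp := (Fact.out : p.Prime)
  change res p n _ = 0
  rw [← PowerSeries.coeff_map, map_mulSeries, hF.honda.1, PowerSeries.coeff_X_pow, if_neg]
  exact (Nat.one_lt_pow (by omega) hp.one_lt).ne

/-- Iterates of [p] applied to a lift of an endomorphism are endomorphisms modulo higher and
higher powers of the maximal ideal. -/
theorem exists_lift_hom (hn : 1 ≤ n) (hF : IsNice p n F) {η : PowerSeries (K p n)}
    (hη : IsHom (F.map (res p n)) (F.map (res p n)) η) (k : ℕ) :
    ∃ ψ : PowerSeries (E p n), PowerSeries.constantCoeff ψ = 0 ∧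
      PowerSeries.map (res p n) ψ = η ^ p ^ (n * k) ∧
      HomEq (F.map (Ideal.Quotient.mk (mE p n ^ (k + 1))))
        (F.map (Ideal.Quotient.mk (mE p n ^ (k + 1))))
        (PowerSeries.map (Ideal.Quotient.mk (mE p n ^ (k + 1))) ψ) := by
  have hcomm := hF.comm
  induction k with
  | zero =>
    choose l hl using fun i => res_surjective (PowerSeries.coeff i η)
    let ψ : PowerSeries (E p n) := PowerSeries.mk fun i => if i = 0 then 0 else l i
    have hψ0 : PowerSeries.constantCoeff ψ = 0 := by
      rw [← PowerSeries.coeff_zero_eq_constantCoeff_apply, PowerSeries.coeff_mk, if_pos rfl]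
    have hψ : PowerSeries.map (res p n) ψ = η := by
      refine PowerSeries.ext fun i => ?_
      rw [PowerSeries.coeff_map, PowerSeries.coeff_mk]
      split_ifs with hi
      · rw [hi, map_zero, PowerSeries.coeff_zero_eq_constantCoeff_apply, hη.1]
      · exact hl i
    refine ⟨ψ, hψ0, by simpa using hψ, ?_⟩
    have he : mE p n ≤ mE p n ^ (0 + 1) := by rw [zero_add, pow_one]
    let τ : K p n →+* E p n ⧸ mE p n ^ (0 + 1) :=
      (Ideal.Quotient.factor he).comp (resInv p n)
    have hτ : τ.comp (res p n) = Ideal.Quotient.mk (mE p n ^ (0 + 1)) := by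
      refine RingHom.ext fun f => ?_
      simp only [τ, RingHom.comp_apply, resInv_res]
      rfl
    have h := (show HomEq (F.map (res p n)) (F.map (res p n)) η from hη.2).map hη.1 τ
    rw [map_map', ← hψ, powerSeries_map_map, hτ] at h
    exact h
  | succ k ih =>
    obtain ⟨ψ, hψ0, hψres, heq⟩ := ih
    set P := mulSeries F p
    have hP : IsHom F F P := mulSeries_isHom F p
    have hψ1 : PowerSeries.HasSubst ψ := PowerSeries.HasSubst.of_constantCoeff_zero' hψ0
    let ψ' : PowerSeries (E p n) := PowerSeries.subst ψ P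
    have hψ'0 : PowerSeries.constantCoeff ψ' = 0 :=
      PowerSeries.constantCoeff_subst_eq_zero (a := (ψ : MvPowerSeries Unit (E p n))) hψ0 P hP.1
    refine ⟨ψ', hψ'0, ?_, ?_⟩
    · change PowerSeries.map (res p n) (PowerSeries.subst ψ P) = _
      rw [map_subst_powerSeries _ hψ0, map_mulSeries, hF.honda.1, hψres]
      have hs : PowerSeries.HasSubst (η ^ p ^ (n * k)) :=
        PowerSeries.HasSubst.of_constantCoeff_zero' (by
          rw [map_pow, hη.1, zero_pow (pow_ne_zero _ (Fact.out : p.Prime).ne_zero)])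
      rw [PowerSeries.subst_pow hs, PowerSeries.subst_X hs, ← pow_mul, ← pow_add, Nat.mul_succ]
    · set a := mE p n
      set q := Ideal.Quotient.mk (a ^ (k + 1 + 1))
      have hIa := mul_map_eq_bot (a := a) (k + 1)
      have hI := map_le (a := a) (show 1 ≤ k + 1 by omega)
      have : (F.map q).IsComm := isComm_map F q
      set ψR := PowerSeries.map q ψ
      set PR := PowerSeries.map q P
      have hψR0 : PowerSeries.constantCoeff ψR = 0 := by
        rw [← PowerSeries.coeff_zero_eq_constantCoeff_apply, PowerSeries.coeff_map,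
          PowerSeries.coeff_zero_eq_constantCoeff_apply, hψ0, map_zero]
      have hPR : IsHom (F.map q) (F.map q) PR := hP.map q
      have p0 := hsubst_ev hψR0 (hsX (R := E p n ⧸ a ^ (k + 1 + 1)) (0 : Fin 2))
      have p1 := hsubst_ev hψR0 (hsX (R := E p n ⧸ a ^ (k + 1 + 1)) (1 : Fin 2))
      have hcomp : ∀ {w : MvPowerSeries (Fin 2) (E p n ⧸ a ^ (k + 1 + 1))},
          PowerSeries.HasSubst w → ev (PowerSeries.map q ψ') w = ev PR (ev ψR w) := by
        intro w hw
        change PowerSeries.subst w (PowerSeries.map q (PowerSeries.subst ψ P)) = _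
        rw [map_subst_powerSeries _ hψ0]
        exact PowerSeries.subst_comp_subst_apply
          (PowerSeries.HasSubst.of_constantCoeff_zero' hψR0) hw PR
      have hz : ∀ i : Fin 2, MvPowerSeries.constantCoeff
          (ev ψR (X i : MvPowerSeries (Fin 2) (E p n ⧸ a ^ (k + 1 + 1)))) = 0 := fun i =>
        PowerSeries.constantCoeff_subst_eq_zero (by simp) ψR hψR0
      -- the error of ψ at the next level
      obtain ⟨t, ht, hte⟩ := exists_small hIa hI (F.map q)
        (c := pl (F.map q) (ev ψR (X 0)) (ev ψR (X 1))) (d := ev ψR (F.map q).toPowerSeries)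
        (hsubst_pl _ p0 p1) (by
          have hD : ev ψ F.toPowerSeries - pl F (ev ψ (X 0)) (ev ψ (X 1)) ∈
              cI (Fin 2) (a ^ (k + 1)) := by
            rw [← map_mk_eq_iff, map_ev _ ψ (hsubst_group F),
              map_pl _ F (hsubst_ev hψ0 (hsX 0)) (hsubst_ev hψ0 (hsX 1)), map_ev _ ψ (hsX 0),
              map_ev _ ψ (hsX 1), MvPowerSeries.map_X, MvPowerSeries.map_X]
            exact heq
          have := map_mem_cI q (J := (a ^ (k + 1)).map q) (fun x hx => Ideal.mem_map_of_mem q hx) hD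
          rw [map_sub, map_ev q ψ (hsubst_group F),
            map_pl q F (hsubst_ev hψ0 (hsX 0)) (hsubst_ev hψ0 (hsX 1)), map_ev q ψ (hsX 0),
            map_ev q ψ (hsX 1), MvPowerSeries.map_X, MvPowerSeries.map_X] at this
          exact this)
      have htn := hsubst_small hIa hI ht
      have hct : MvPowerSeries.constantCoeff t = 0 := by
        have hc0 : MvPowerSeries.constantCoeff
            (pl (F.map q) (ev ψR (X 0)) (ev ψR (X (1 : Fin 2)))) = 0 :=
          constantCoeff_subst_pair _ (hz 0) (hz 1)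
        have h2 := congrArg MvPowerSeries.constantCoeff hte
        rw [pl_small hIa hI _ (hsubst_pl _ p0 p1) ht, map_add, hc0, zero_add, map_mul,
          show MvPowerSeries.constantCoeff (ev ψR (F.map q).toPowerSeries) = 0 from
            PowerSeries.constantCoeff_subst_eq_zero (F.map q).zero_constantCoeff ψR hψR0] at h2
        exact (isUnit_iff_constantCoeff.mp
          (isUnit_Pd _ (hsubst_pl _ p0 p1))).mul_left_eq_zero.mp h2
      have hPt : ev PR t = 0 := by
        rw [ev_small hIa hI hPR.1 ht, mul_comm]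
        refine mul_eq_zero_of_mem hIa ht (C_mem_cI ?_)
        rw [PowerSeries.coeff_map]
        exact Ideal.mem_map_of_mem q (res_coeff_one_mulSeries hn hF)
      rw [HomEq, hcomp (hsubst_group _), hcomp (hsX 0), hcomp (hsX 1), ← hte]
      refine (hPR.apply (constantCoeff_subst_pair _ (hz 0) (hz 1)) hct).trans ?_
      change pl (F.map q) (ev PR _) (ev PR t) = _
      rw [hPt]
      refine (pl_zero _ (hsubst_ev hPR.1 (hsubst_pl _ p0 p1))).trans ?_
      exact hPR.apply (hz 0) (hz 1)

/-- The automorphism g = X +_Γ η(X^(p^(nk))) lifts modulo mE^(k+1). -/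
theorem exists_lift_near_one (hn : 1 ≤ n) (hF : IsNice p n F) {η : PowerSeries (K p n)}
    (hη : IsHom (F.map (res p n)) (F.map (res p n)) η) (k : ℕ) :
    ∃ ψ : PowerSeries (E p n), PowerSeries.constantCoeff ψ = 0 ∧
      PowerSeries.map (res p n) ψ = (F.map (res p n)).toPowerSeries.subst
        ![PowerSeries.X, PowerSeries.subst ((PowerSeries.X : PowerSeries (K p n)) ^ p ^ (n * k)) η] ∧
      HomEq (F.map (Ideal.Quotient.mk (mE p n ^ (k + 1))))
        (F.map (Ideal.Quotient.mk (mE p n ^ (k + 1))))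
        (PowerSeries.map (Ideal.Quotient.mk (mE p n ^ (k + 1))) ψ) := by
  have hcomm := hF.comm
  obtain ⟨ψ, hψ0, hψres, heq⟩ := exists_lift_hom hn hF hη k
  have hX : PowerSeries.constantCoeff (PowerSeries.X : PowerSeries (E p n)) = 0 :=
    PowerSeries.constantCoeff_X
  have hsX' : PowerSeries.HasSubst (PowerSeries.X : PowerSeries (E p n)) :=
    PowerSeries.HasSubst.of_constantCoeff_zero' hX
  have hsψ : PowerSeries.HasSubst ψ := PowerSeries.HasSubst.of_constantCoeff_zero' hψ0
  refine ⟨pl (τ := Unit) F PowerSeries.X ψ, constantCoeff_pl_unit F hX hψ0, ?_, ?_⟩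
  · refine (map_pl (τ := Unit) (res p n) F hsX' hsψ).trans ?_
    change pl (τ := Unit) _ (PowerSeries.map _ _) (PowerSeries.map _ ψ) = _
    rw [map_X', hψres, subst_X_pow_eq_pow hn η k]
    rfl
  · set q := Ideal.Quotient.mk (mE p n ^ (k + 1))
    have : (F.map q).IsComm := isComm_map F q
    set ψR := PowerSeries.map q ψ
    have hψR0 : PowerSeries.constantCoeff ψR = 0 := by
      rw [← PowerSeries.coeff_zero_eq_constantCoeff_apply, PowerSeries.coeff_map,
        PowerSeries.coeff_zero_eq_constantCoeff_apply, hψ0, map_zero]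
    have hmap : PowerSeries.map q (pl (τ := Unit) F PowerSeries.X ψ) =
        pl (τ := Unit) (F.map q) PowerSeries.X ψR := by
      refine (map_pl (τ := Unit) q F hsX' hsψ).trans ?_
      change pl (τ := Unit) _ (PowerSeries.map _ _) (PowerSeries.map _ ψ) = _
      rw [map_X']
    have evX : ∀ {w : MvPowerSeries (Fin 2) (E p n ⧸ mE p n ^ (k + 1))},
        PowerSeries.HasSubst w → ev PowerSeries.X w = w := fun hw => PowerSeries.subst_X hw
    have hX' : PowerSeries.constantCoeff
        (PowerSeries.X : PowerSeries (E p n ⧸ mE p n ^ (k + 1))) = 0 := PowerSeries.constantCoeff_X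
    have p0 := hsubst_ev hψR0 (hsX (R := E p n ⧸ mE p n ^ (k + 1)) (0 : Fin 2))
    have p1 := hsubst_ev hψR0 (hsX (R := E p n ⧸ mE p n ^ (k + 1)) (1 : Fin 2))
    have hG := hsubst_group (F.map q)
    rw [HomEq, hmap, ev_pl (F.map q) hX' hψR0 hG, ev_pl (F.map q) hX' hψR0 (hsX 0),
      ev_pl (F.map q) hX' hψR0 (hsX 1), evX hG, evX (hsX 0), evX (hsX 1), heq]
    conv_lhs => rw [← pl_X (F.map q)]
    rw [pl_assoc _ (hsX 0) (hsX 1) (hsubst_pl _ p0 p1), ← pl_assoc _ (hsX 1) p0 p1,
      pl_comm _ (hsX 1) p0, pl_assoc _ p0 (hsX 1) p1, ← pl_assoc _ (hsX 0) p0 (hsubst_pl _ (hsX 1) p1)]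

/-- For g = X +_Γ η(X^(p^(nk))) with k ≥ 1, g is an automorphism. -/
theorem isAut_near_one (hn : 1 ≤ n) (hF : IsNice p n F) {η : PowerSeries (K p n)}
    (hη : IsHom (F.map (res p n)) (F.map (res p n)) η) {k : ℕ} (hk : 1 ≤ k) :
    IsAut p n F ((F.map (res p n)).toPowerSeries.subst
      ![PowerSeries.X,
        PowerSeries.subst ((PowerSeries.X : PowerSeries (K p n)) ^ p ^ (n * k)) η]) := by
  obtain ⟨ψ, hψ0, hψres, heq⟩ := exists_lift_near_one hn hF hη k
  have he : mE p n ^ (k + 1) ≤ mE p n := Ideal.pow_le_self (by omega)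
  let inv : E p n ⧸ mE p n →+* K p n :=
    (RingHom.quotientKerEquivOfSurjective (res_surjective (p := p) (n := n))).toRingHom
  let τ : E p n ⧸ mE p n ^ (k + 1) →+* K p n := inv.comp (Ideal.Quotient.factor he)
  have hτ : τ.comp (Ideal.Quotient.mk (mE p n ^ (k + 1))) = res p n := by
    refine RingHom.ext fun f => ?_
    exact RingHom.quotientKerEquivOfSurjective_apply_mk res_surjective f
  have h := heq.map (by
    rw [← PowerSeries.coeff_zero_eq_constantCoeff_apply, PowerSeries.coeff_map,
      PowerSeries.coeff_zero_eq_constantCoeff_apply, hψ0, map_zero]) τ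
  rw [map_map', powerSeries_map_map, hτ, hψres] at h
  refine ⟨⟨?_, h⟩, ?_⟩
  · rw [← hψres, ← PowerSeries.coeff_zero_eq_constantCoeff_apply, PowerSeries.coeff_map,
      PowerSeries.coeff_zero_eq_constantCoeff_apply, hψ0, map_zero]
  · rw [subst_X_pow_eq_pow hn η k]
    have hη' : PowerSeries.constantCoeff (η ^ p ^ (n * k)) = 0 := by
      rw [map_pow, hη.1, zero_pow (pow_ne_zero _ (Fact.out : p.Prime).ne_zero)]
    have hc1 : PowerSeries.coeff 1 (η ^ p ^ (n * k)) = 0 := by
      have hp2 : 2 ≤ p ^ (n * k) := by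
        have := two_le_pow_succ (p := p) (n * k - 1)
        rwa [Nat.sub_add_cancel (Nat.mul_pos hn hk)] at this
      rw [show p ^ (n * k) = (p ^ (n * k) - 2) + 2 by omega, pow_add, mul_comm]
      have h2 : (PowerSeries.X : PowerSeries (K p n)) ^ 2 ∣
          η ^ 2 * η ^ (p ^ (n * k) - 2) :=
        dvd_mul_of_dvd_left (pow_dvd_pow_of_dvd (PowerSeries.X_dvd_iff.mpr hη.1) 2) _
      exact PowerSeries.X_pow_dvd_iff.mp h2 1 (by omega)
    set Γ := F.map (res p n)
    have hsX'' : PowerSeries.HasSubst (PowerSeries.X : PowerSeries (K p n)) :=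
      PowerSeries.HasSubst.X'
    have hs : PowerSeries.HasSubst (η ^ p ^ (n * k)) :=
      PowerSeries.HasSubst.of_constantCoeff_zero' hη'
    change IsUnit (PowerSeries.coeff 1 (pl (τ := Unit) Γ PowerSeries.X (η ^ p ^ (n * k))))
    rw [pl, group_eq Γ, subst_add (hs2 hsX'' hs), subst_mul (hs2 hsX'' hs), subst_X0 hsX'' hs,
      subst_X1 hsX'' hs]
    change IsUnit (PowerSeries.coeff 1 ((PowerSeries.X : PowerSeries (K p n)) +
      (η ^ p ^ (n * k)) * (subst ![(PowerSeries.X : PowerSeries (K p n)), η ^ p ^ (n * k)]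
        (tailH Γ) : PowerSeries (K p n))))
    rw [map_add, PowerSeries.coeff_one_X, PowerSeries.coeff_one_mul, hη', hc1]
    simp

/-- The export: near the identity the action is trivial modulo a power of the maximal ideal. -/
theorem actsBy_near_one (hn : 1 ≤ n) (hF : IsNice p n F) {η : PowerSeries (K p n)}
    (hη : IsHom (F.map (res p n)) (F.map (res p n)) η) (k : ℕ) {φ : E p n →ₐ[W p n] E p n}
    (hact : ActsBy p n F ((F.map (res p n)).toPowerSeries.subst
      ![PowerSeries.X,
        PowerSeries.subst ((PowerSeries.X : PowerSeries (K p n)) ^ p ^ (n * k)) η]) φ)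
    (f : E p n) : φ f - f ∈ mE p n ^ (k + 1) := by
  obtain ⟨ψ, hψ0, hψres, heq⟩ := exists_lift_near_one hn hF hη k
  exact actsBy_congr hn hF hact (by omega) hψ0 hψres heq f

end near_identity

end

end Vale.Agent.P217.Deform
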