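import Mathlib

/-!
The uniqueness lemma for homogeneous symmetric 2-cocycles of the additive group in
characteristic p: such a cocycle of degree D is zero if one marked coefficient is.
-/

namespace Vale.Agent.P217.Deform

variable (p : ℕ) [Fact p.Prime]

/-- The marked exponent: p^(v-1) for D = p^v and p^v for D = p^v m with m prime to p, m > 1. -/
noncomputable def qd (D : ℕ) : ℕ :=
  if D = p ^ padicValNat p D then p ^ (padicValNat p D - 1) else p ^ padicValNat p D

theorem qd_pow (s : ℕ) : qd p (p ^ s) = p ^ (s - 1) := by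
  simp [qd]

theorem choose_pow_mul (v x : ℕ) : Nat.choose (p ^ v * x) (p ^ v) ≡ x [MOD p] := by
  have h := Choose.choose_pow_mul_pow_mul_modEq_choose_nat (p := p) (k := v) (a := x) (b := 1)
  simpa using h

theorem choose_pred (u M : ℕ) (hM : 1 ≤ M) :
    Nat.choose (p ^ u * M - 1) (p ^ u - 1) ≡ 1 [MOD p] := by
  have hp := (Fact.out : p.Prime)
  induction u with
  | zero => simp [Nat.ModEq]
  | succ u ih =>
    have h1 : 1 ≤ p ^ u := Nat.one_le_pow _ _ hp.pos
    have key : ∀ b, 1 ≤ b → (p * b - 1) % p = p - 1 ∧ (p * b - 1) / p = b - 1 := by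
      intro b hb
      have e : p * b - 1 = (p - 1) + p * (b - 1) := by
        rw [Nat.mul_sub, mul_one]
        have : p ≤ p * b := Nat.le_mul_of_pos_right p hb
        have := hp.pos
        omega
      have hlt : p - 1 < p := Nat.sub_lt hp.pos one_pos
      rw [e, Nat.add_mul_mod_self_left, Nat.add_mul_div_left _ _ hp.pos, Nat.mod_eq_of_lt hlt,
        Nat.div_eq_of_lt hlt, zero_add]
      exact ⟨rfl, rfl⟩
    obtain ⟨m1, d1⟩ := key (p ^ u * M) (Nat.mul_pos h1 hM)
    obtain ⟨m2, d2⟩ := key (p ^ u) h1
    rw [pow_succ', mul_assoc]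
    refine (Choose.choose_modEq_choose_mod_mul_choose_div_nat (p := p)).trans ?_
    rw [m1, d1, m2, d2, Nat.choose_self, one_mul]
    exact ih

theorem nsmul_eq_zero_cancel {V : Type*} [AddCommGroup V] {x : V} {m : ℕ} (hx : p • x = 0)
    (hm : ¬ p ∣ m) (h : m • x = 0) : x = 0 := by
  have hp := (Fact.out : p.Prime)
  have h1 := Nat.dvd_gcd (addOrderOf_dvd_of_nsmul_eq_zero hx)
    (addOrderOf_dvd_of_nsmul_eq_zero h)
  rw [(hp.coprime_iff_not_dvd.mpr hm).gcd_eq_one, Nat.dvd_one] at h1
  exact AddMonoid.addOrderOf_eq_one_iff.mp h1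

omit [Fact p.Prime] in
theorem not_dvd_of_modEq {a b : ℕ} (h : a ≡ b [MOD p]) (hb : ¬ p ∣ b) : ¬ p ∣ a := by
  rwa [h.dvd_iff dvd_rfl]

/-- Uniqueness for symmetric homogeneous cocycles. -/
theorem cocycle_eq_zero {V : Type*} [AddCommGroup V] (hpV : ∀ x : V, p • x = 0) (D : ℕ)
    (β : ℕ → V) (hsymm : ∀ i, 1 ≤ i → i < D → β (D - i) = β i)
    (hid : ∀ i j k, 1 ≤ i → 1 ≤ j → 1 ≤ k → i + j + k = D →
      Nat.choose (i + j) i • β (i + j) = Nat.choose (j + k) j • β i)
    (hq : β (qd p D) = 0) : ∀ i, 1 ≤ i → i < D → β i = 0 := by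
  have hp := (Fact.out : p.Prime)
  intro i0 hi0 hi0D
  have hD0 : D ≠ 0 := by omega
  -- relation between i and a larger m
  have rel : ∀ i m, 1 ≤ i → i < m → m < D →
      Nat.choose m i • β m = Nat.choose (D - i) (m - i) • β i := by
    intro i m hi him hmD
    have h := hid i (m - i) (D - m) hi (by omega) (by omega) (by omega)
    rw [show i + (m - i) = m by omega, show (m - i) + (D - m) = D - i by omega] at h
    exact h
  -- the marked exponent p^w divides D, and is the only exponent allowed when D is a power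
  obtain ⟨w, M, hw, hDM, hM⟩ : ∃ w M, qd p D = p ^ w ∧ D = p ^ w * M ∧
      ((¬ p ∣ M) ∨ M = p) := by
    obtain ⟨v, m', hm', hDv⟩ := Nat.exists_eq_pow_mul_and_not_dvd hD0 p hp.ne_one
    have hval : padicValNat p D = v := by
      rw [hDv, padicValNat.mul (pow_ne_zero v hp.ne_zero)
        (fun h => hm' (by rw [h]; exact dvd_zero p)), padicValNat.prime_pow,
        padicValNat.eq_zero_of_not_dvd hm', add_zero]
    by_cases hpow : D = p ^ v
    · rcases Nat.eq_zero_or_pos v with hv | hv
      · exfalso
        rw [hv, pow_zero] at hpow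
        omega
      · exact ⟨v - 1, p, by rw [hpow, qd_pow], by
          rw [hpow, ← pow_succ, Nat.sub_add_cancel hv], Or.inr rfl⟩
    · refine ⟨v, m', ?_, hDv, Or.inl hm'⟩
      rw [qd, hval, if_neg hpow]
  rw [hw] at hq
  have hM1 : 1 ≤ M := by
    rcases Nat.eq_zero_or_pos M with h | h
    · exact absurd (by rw [hDM, h, mul_zero]) hD0
    · exact h
  -- all p-powers
  have hpows : ∀ t, p ^ t < D → β (p ^ t) = 0 := by
    intro t ht
    rcases lt_trichotomy t w with htw | rfl | htw
    · have hlt : p ^ t < p ^ w := Nat.pow_lt_pow_right hp.one_lt htw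
      have hwD : p ^ w < D := by
        rcases Nat.lt_or_ge (p ^ w) D with h | h
        · exact h
        · exfalso
          rcases hM with hM | hM
          · -- D = p^w, so M = 1 and the marked exponent would be smaller
            have hMone : M = 1 := by
              rw [hDM] at h
              have h' : p ^ w * M ≤ p ^ w * 1 := by rwa [mul_one]
              have := Nat.le_of_mul_le_mul_left h' (pow_pos hp.pos w)
              omega
            rw [hMone, mul_one] at hDM
            rw [hDM, qd_pow] at hw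
            have : w - 1 = w := Nat.pow_right_injective hp.two_le hw
            omega
          · rw [hDM, hM] at h
            have : p ^ w * 1 < p ^ w * p :=
              Nat.mul_lt_mul_of_pos_left hp.one_lt (pow_pos hp.pos w)
            omega
      have h := rel (p ^ t) (p ^ w) (Nat.one_le_pow _ _ hp.pos) hlt hwD
      rw [hq, smul_zero] at h
      refine nsmul_eq_zero_cancel p (hpV _) (not_dvd_of_modEq p ?_ hp.not_dvd_one) h.symm
      have e1 : D - p ^ t = p ^ t * (p ^ (w - t) * M - 1) := by
        rw [Nat.mul_sub, ← mul_assoc, ← pow_add, Nat.add_sub_cancel' htw.le, mul_one, ← hDM]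
      have e2 : p ^ w - p ^ t = p ^ t * (p ^ (w - t) - 1) := by
        rw [Nat.mul_sub, ← pow_add, Nat.add_sub_cancel' htw.le, mul_one]
      rw [e1, e2]
      exact (Choose.choose_pow_mul_pow_mul_modEq_choose_nat).trans (choose_pred p _ M hM1)
    · exact hq
    · have hMp : ¬ p ∣ M := by
        rcases hM with h | h
        · exact h
        · exfalso
          rw [hDM, h, ← pow_succ] at ht
          have := (Nat.pow_lt_pow_iff_right hp.one_lt).mp ht
          omega
      obtain ⟨e, he⟩ : ∃ e, p ^ t = p ^ w * (p * e) := ⟨p ^ (t - w - 1), by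
        rw [← pow_succ', ← pow_add]; congr 1; omega⟩
      have heM : p * e < M := by
        rw [he, hDM] at ht
        exact Nat.lt_of_mul_lt_mul_left ht
      by_cases hsum : p ^ w + p ^ t = D
      · rw [← hsymm (p ^ w) (Nat.one_le_pow _ _ hp.pos) (by
          have := pow_pos hp.pos t; omega)] at hq
        rwa [show D - p ^ w = p ^ t by omega] at hq
      have hlt : p ^ w + p ^ t < D := by
        have : p ^ w + p ^ t ≤ D := by
          rw [he, hDM, ← mul_one_add]
          exact Nat.mul_le_mul_left _ (by omega)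
        omega
      have h1 := rel (p ^ t) (p ^ w + p ^ t) (Nat.one_le_pow _ _ hp.pos)
        (by have := pow_pos hp.pos w; omega) hlt
      have h2 := rel (p ^ w) (p ^ w + p ^ t) (Nat.one_le_pow _ _ hp.pos)
        (by have := pow_pos hp.pos t; omega) hlt
      rw [hq, smul_zero, Nat.choose_symm_add] at h2
      rw [h2, show p ^ w + p ^ t - p ^ t = p ^ w by omega] at h1
      refine nsmul_eq_zero_cancel p (hpV _) (not_dvd_of_modEq p (b := M - p * e) ?_ ?_) h1.symm
      · rw [he, hDM, ← Nat.mul_sub]
        exact choose_pow_mul p w _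
      · intro hd
        exact hMp ((Nat.dvd_sub_iff_left heM.le (dvd_mul_right p e)).mp hd)
  -- general exponent
  obtain ⟨v, x, hx, hix⟩ :=
    Nat.exists_eq_pow_mul_and_not_dvd (show i0 ≠ 0 by omega) p hp.ne_one
  by_cases hx1 : x = 1
  · rw [hix, hx1, mul_one]
    exact hpows v (by rw [hix, hx1, mul_one] at hi0D; exact hi0D)
  have hx0 : x ≠ 0 := fun h => hx (by rw [h]; exact dvd_zero p)
  have hlt : p ^ v < i0 := by
    rw [hix]
    exact lt_mul_of_one_lt_right (pow_pos hp.pos v) (by omega)
  have h := rel (p ^ v) i0 (Nat.one_le_pow _ _ hp.pos) hlt hi0D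
  rw [hpows v (hlt.trans hi0D), smul_zero] at h
  refine nsmul_eq_zero_cancel p (hpV _) (not_dvd_of_modEq p ?_ hx) h
  rw [hix]
  exact choose_pow_mul p v x

end Vale.Agent.P217.Deform
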