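import Vale.Agent.P217.Deform.LogFacts

/-!
W-algebra maps out of the Lubin-Tate ring, and completeness of that ring.
-/

namespace Vale.Agent.P217.Deform

noncomputable section

open MvPowerSeries

variable {p n : ℕ} [Fact p.Prime]

/-- A series without constant term is a combination of the variables. -/
theorem exists_sum_X_mul {σ R : Type*} [CommRing R] [Fintype σ] [LinearOrder σ]
    {f : MvPowerSeries σ R} {N : ℕ} (hf : f ∈ lowI σ R (N + 1)) :
    ∃ g : σ → MvPowerSeries σ R, f = ∑ i, X i * g i ∧ (∀ i, g i ∈ lowI σ R N) ∧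
      ∀ i, constantCoeff (g i) = coeff (Finsupp.single i 1) f := by
  classical
  let g : σ → MvPowerSeries σ R := fun i d =>
    if ∀ j, j < i → d j = 0 then coeff (d + Finsupp.single i 1) f else 0
  have hg : ∀ i d, coeff d (g i) =
      if ∀ j, j < i → d j = 0 then coeff (d + Finsupp.single i 1) f else 0 := fun _ _ => rfl
  refine ⟨g, ?_, fun i d hd => ?_, fun i => ?_⟩
  · ext d
    rw [map_sum]
    have hterm : ∀ i, coeff d (X i * g i) =
        if 1 ≤ d i ∧ ∀ j, j < i → d j = 0 then coeff d f else 0 := by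
      intro i
      rw [X, coeff_monomial_mul]
      by_cases h : 1 ≤ d i
      · have hle : Finsupp.single i 1 ≤ d := Finsupp.single_le_iff.mpr h
        rw [if_pos hle, one_mul, hg, tsub_add_cancel_of_le hle]
        have hiff : (∀ j, j < i → (d - Finsupp.single i 1 : σ →₀ ℕ) j = 0) ↔ ∀ j, j < i → d j = 0 :=
          forall₂_congr fun j hj => by simp [Finsupp.single_eq_of_ne hj.ne]
        rw [if_congr hiff rfl rfl]
        simp [h]
      · rw [if_neg (by rwa [Finsupp.single_le_iff]), if_neg fun hh => h hh.1]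
    simp only [hterm]
    by_cases hd : d = 0
    · subst hd
      rw [Finset.sum_eq_zero (fun i _ => if_neg (by simp))]
      exact hf 0 (by simp)
    · have hne : d.support.Nonempty := Finsupp.support_nonempty_iff.mpr hd
      obtain ⟨i0, hi0, hmin⟩ := d.support.exists_min_image id hne
      rw [Finsupp.mem_support_iff] at hi0
      have hlt : ∀ j, j < i0 → d j = 0 := fun j hj => by
        by_contra h
        exact absurd (hmin j (Finsupp.mem_support_iff.mpr h)) (not_le.mpr hj)
      rw [Finset.sum_eq_single i0]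
      · rw [if_pos ⟨Nat.one_le_iff_ne_zero.mpr hi0, hlt⟩]
      · intro i _ hi
        rw [if_neg]
        rintro ⟨h1, h2⟩
        rcases lt_or_gt_of_ne hi with h | h
        · have := hlt i h; omega
        · exact hi0 (h2 i0 h)
      · intro h; exact absurd (Finset.mem_univ _) h
  · rw [hg]
    split_ifs
    · exact hf _ (by rw [map_add, Finsupp.degree_single]; omega)
    · rfl
  · rw [← coeff_zero_eq_constantCoeff_apply, hg, if_pos, zero_add]
    intro j _
    rfl

/-- A series without terms of degree less than N lies in the N-th power of the ideal of the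
variables. -/
theorem mem_span_pow {σ R : Type*} [CommRing R] [Fintype σ] [LinearOrder σ] {N : ℕ}
    {f : MvPowerSeries σ R} (hf : f ∈ lowI σ R N) :
    f ∈ (Ideal.span (Set.range X) : Ideal (MvPowerSeries σ R)) ^ N := by
  induction N generalizing f with
  | zero => simp
  | succ N ih =>
    obtain ⟨g, hg, hgl, -⟩ := exists_sum_X_mul hf
    rw [hg, pow_succ']
    exact Ideal.sum_mem _ fun i _ =>
      Ideal.mul_mem_mul (Ideal.subset_span (Set.mem_range_self i)) (ih (hgl i))

section evalHom

variable {A : Type*} [CommRing A] [Algebra (W p n) A] (a : Ideal A)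
  (x : Fin (n - 1) → A)

/-- Evaluation of a polynomial modulo a^N. -/
def polyEval (N : ℕ) (P : MvPolynomial (Fin (n - 1)) (W p n)) : A ⧸ a ^ N :=
  P.eval₂ ((Ideal.Quotient.mk (a ^ N)).comp (algebraMap (W p n) A))
    (fun i => Ideal.Quotient.mk (a ^ N) (x i))

/-- The approximation of the evaluation modulo a^N. -/
def rho (N : ℕ) (f : E p n) : A ⧸ a ^ N := polyEval a x N (truncTotal N f)

variable {a x}

theorem polyEval_eq_zero (hx : ∀ i, x i ∈ a) (N : ℕ)
    {P : MvPolynomial (Fin (n - 1)) (W p n)} (h : ∀ d, d.degree < N → P.coeff d = 0) :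
    polyEval a x N P = 0 := by
  classical
  rw [polyEval, MvPolynomial.eval₂_eq']
  refine Finset.sum_eq_zero fun d hd => ?_
  rw [MvPolynomial.mem_support_iff] at hd
  have hdeg : N ≤ d.degree := le_of_not_gt fun hlt => hd (h d hlt)
  have hmem : (∏ i, x i ^ d i) ∈ a ^ N := by
    refine Ideal.pow_le_pow_right hdeg ?_
    rw [Finsupp.degree_eq_sum, ← Finset.prod_pow_eq_pow_sum]
    exact Ideal.prod_mem_prod fun i _ => Ideal.pow_mem_pow (hx i) _
  have h0 : (∏ i, Ideal.Quotient.mk (a ^ N) (x i) ^ d i) = 0 := by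
    simp only [← map_pow, ← map_prod]
    exact Ideal.Quotient.eq_zero_iff_mem.mpr hmem
  rw [h0, mul_zero]

theorem rho_eq (hx : ∀ i, x i ∈ a) (N : ℕ) (f : E p n)
    {P : MvPolynomial (Fin (n - 1)) (W p n)} (h : ∀ d, d.degree < N → P.coeff d = coeff d f) :
    rho a x N f = polyEval a x N P := by
  rw [rho, ← sub_eq_zero, polyEval, polyEval, ← MvPolynomial.eval₂_sub]
  refine polyEval_eq_zero hx N fun d hd => ?_
  rw [MvPolynomial.coeff_sub, coeff_truncTotal _ hd, h d hd, sub_self]

/-- The approximation as a ring map. -/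
def rhoHom (hx : ∀ i, x i ∈ a) (N : ℕ) : E p n →+* A ⧸ a ^ N where
  toFun := rho a x N
  map_one' := by
    rw [rho_eq hx N 1 (P := 1) fun d _ => by classical simp [MvPolynomial.coeff_one, coeff_one, eq_comm]]
    exact MvPolynomial.eval₂_one _ _
  map_mul' f g := by
    rw [rho_eq hx N (f * g) (P := truncTotal N f * truncTotal N g)
      fun d hd => coeff_truncTotal_mul_truncTotal_eq_coeff_mul _ _ hd]
    exact MvPolynomial.eval₂_mul _ _
  map_zero' := by
    rw [rho_eq hx N 0 (P := 0) fun d _ => by simp]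
    exact MvPolynomial.eval₂_zero _ _
  map_add' f g := by
    rw [rho_eq hx N (f + g) (P := truncTotal N f + truncTotal N g) fun d hd => by
      rw [MvPolynomial.coeff_add, coeff_truncTotal _ hd, coeff_truncTotal _ hd, map_add]]
    exact MvPolynomial.eval₂_add _ _

theorem rhoHom_C (hx : ∀ i, x i ∈ a) (N : ℕ) (c : W p n) :
    rhoHom hx N (MvPowerSeries.C c : E p n) = Ideal.Quotient.mk _ (algebraMap (W p n) A c) := by
  refine (rho_eq hx N _ (P := MvPolynomial.C c) fun d _ => ?_).trans (MvPolynomial.eval₂_C _ _ _)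
  classical
  simp [MvPolynomial.coeff_C, coeff_C, eq_comm]

theorem rhoHom_u (hx : ∀ i, x i ∈ a) (N : ℕ) (i : Fin (n - 1)) :
    rhoHom hx N (u p n i) = Ideal.Quotient.mk _ (x i) := by
  refine (rho_eq hx N _ (P := MvPolynomial.X i) fun d _ => ?_).trans (MvPolynomial.eval₂_X _ _ _)
  classical
  simp [MvPolynomial.coeff_X, coeff_X, u, eq_comm]

theorem rhoHom_compat (hx : ∀ i, x i ∈ a) {m N : ℕ} (hle : m ≤ N) :
    (Ideal.Quotient.factorPow a hle).comp (rhoHom (p := p) hx N) = rhoHom (p := p) hx m := by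
  refine RingHom.ext fun f => ?_
  change _ = rho a x m f
  rw [rho_eq hx m f (P := truncTotal N f) fun d hd => coeff_truncTotal _ (hd.trans_le hle)]
  change Ideal.Quotient.factorPow a hle (polyEval a x N (truncTotal N f)) = _
  rw [polyEval, MvPolynomial.eval₂_comp_left]
  rfl

variable [IsAdicComplete a A]

/-- The W-algebra map with u_i ↦ x_i. -/
def evalHom (hx : ∀ i, x i ∈ a) : E p n →ₐ[W p n] A where
  toRingHom := IsAdicComplete.liftRingHom a (rhoHom hx) (fun hle => rhoHom_compat hx hle)
  commutes' c := by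
    change IsAdicComplete.liftRingHom a (rhoHom hx) _ (MvPowerSeries.C c) = _
    apply (IsHausdorff.eq_iff_smodEq (I := a)).mpr
    intro N
    rw [SModEq.sub_mem, smul_eq_mul, Ideal.mul_top, ← Ideal.Quotient.eq,
      IsAdicComplete.mk_liftRingHom, rhoHom_C]

theorem mk_evalHom (hx : ∀ i, x i ∈ a) (N : ℕ) (f : E p n) :
    Ideal.Quotient.mk (a ^ N) (evalHom hx f) = rhoHom hx N f :=
  IsAdicComplete.mk_liftRingHom a (rhoHom hx) (fun hle => rhoHom_compat hx hle) N f

theorem eq_of_sub_mem_pow {y z : A} (h : ∀ N, y - z ∈ a ^ N) : y = z := by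
  apply (IsHausdorff.eq_iff_smodEq (I := a)).mpr
  intro N
  rw [SModEq.sub_mem, smul_eq_mul, Ideal.mul_top]
  exact h N

theorem evalHom_u (hx : ∀ i, x i ∈ a) (i : Fin (n - 1)) : evalHom hx (u p n i) = x i :=
  eq_of_sub_mem_pow (a := a) fun N => by rw [← Ideal.Quotient.eq, mk_evalHom, rhoHom_u]

omit [IsAdicComplete a A] in
/-- Two W-algebra maps that agree on the variables modulo J agree modulo J, provided a power
of a lies in J. -/
theorem algHom_congr {J : Ideal A} (φ φ' : E p n →ₐ[W p n] A) {N : ℕ} (hN : a ^ N ≤ J)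
    (hφ : ∀ i, φ (u p n i) ∈ a) (hφ' : ∀ i, φ' (u p n i) ∈ a)
    (h : ∀ i, φ (u p n i) - φ' (u p n i) ∈ J) (f : E p n) : φ f - φ' f ∈ J := by
  set T : MvPolynomial (Fin (n - 1)) (W p n) := truncTotal N f
  have hrest : f - (T : MvPowerSeries (Fin (n - 1)) (W p n)) ∈ lowI _ _ N := fun d hd => by
    rw [map_sub, MvPolynomial.coeff_coe, coeff_truncTotal _ hd, sub_self]
  have hkill : ∀ ψ : E p n →ₐ[W p n] A, (∀ i, ψ (u p n i) ∈ a) →
      ψ f - ψ (T : MvPowerSeries (Fin (n - 1)) (W p n)) ∈ J := by
    intro ψ hψ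
    rw [← map_sub]
    have := Ideal.mem_map_of_mem (ψ : E p n →+* A) (mem_span_pow hrest)
    rw [Ideal.map_pow, Ideal.map_span] at this
    refine hN (Ideal.pow_right_mono ?_ N this)
    rw [Ideal.span_le]
    rintro _ ⟨_, ⟨i, rfl⟩, rfl⟩
    exact hψ i
  have hpoly : φ (T : MvPowerSeries (Fin (n - 1)) (W p n)) -
      φ' (T : MvPowerSeries (Fin (n - 1)) (W p n)) ∈ J := by
    have e : ∀ ψ : E p n →ₐ[W p n] A, ∀ P : MvPolynomial (Fin (n - 1)) (W p n),
        ψ (P : MvPowerSeries (Fin (n - 1)) (W p n)) =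
          MvPolynomial.aeval (fun i => ψ (u p n i)) P := by
      intro ψ P
      induction P using MvPolynomial.induction_on with
      | C c => rw [MvPolynomial.coe_C, MvPolynomial.aeval_C]; exact ψ.commutes c
      | add P Q hP hQ => rw [MvPolynomial.coe_add, map_add, map_add, hP, hQ]
      | mul_X P i hP =>
        rw [MvPolynomial.coe_mul, MvPolynomial.coe_X, map_mul, map_mul, hP, MvPolynomial.aeval_X]
        rfl
    rw [e, e, ← Ideal.Quotient.mk_eq_mk_iff_sub_mem, ← Ideal.Quotient.mkₐ_eq_mk (W p n),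
      MvPolynomial.aeval_def, MvPolynomial.aeval_def]
    rw [Ideal.Quotient.mkₐ_eq_mk, MvPolynomial.eval₂_comp_left, MvPolynomial.eval₂_comp_left]
    congr 1
    funext i
    exact Ideal.Quotient.eq.mpr (h i)
  have e3 : φ f - φ' f = (φ f - φ (T : MvPowerSeries (Fin (n - 1)) (W p n))) -
      (φ' f - φ' (T : MvPowerSeries (Fin (n - 1)) (W p n))) +
      (φ (T : MvPowerSeries (Fin (n - 1)) (W p n)) -
        φ' (T : MvPowerSeries (Fin (n - 1)) (W p n))) := by ring
  rw [e3]
  exact J.add_mem (J.sub_mem (hkill φ hφ) (hkill φ' hφ')) hpoly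

theorem algHom_ext (φ φ' : E p n →ₐ[W p n] A) (hφ : ∀ i, φ (u p n i) ∈ a)
    (h : ∀ i, φ (u p n i) = φ' (u p n i)) : φ = φ' := by
  refine AlgHom.ext fun f => eq_of_sub_mem_pow (a := a) fun N => ?_
  refine algHom_congr φ φ' le_rfl hφ (fun i => h i ▸ hφ i) (fun i => ?_) f
  rw [h i, sub_self]
  exact zero_mem _

omit [IsAdicComplete a A] in
theorem algHom_sub_algebraMap (φ : E p n →ₐ[W p n] A) (hφ : ∀ i, φ (u p n i) ∈ a) (f : E p n) :
    φ f - algebraMap (W p n) A (constantCoeff f) ∈ a := by
  have hlow : f - MvPowerSeries.C (constantCoeff f) ∈ lowI _ _ (0 + 1) :=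
    mem_lowI_one.mpr (by simp)
  obtain ⟨g, hg, -, -⟩ := exists_sum_X_mul hlow
  have hC : φ (MvPowerSeries.C (constantCoeff f)) = algebraMap (W p n) A (constantCoeff f) :=
    φ.commutes _
  rw [← hC, ← map_sub, hg, map_sum]
  refine a.sum_mem fun i _ => ?_
  rw [map_mul]
  exact a.mul_mem_right _ (hφ i)

omit [IsAdicComplete a A] in
/-- The first order term of a change of the parameters. -/
theorem algHom_first_order (φ φ' : E p n →ₐ[W p n] A) (hφ : ∀ i, φ (u p n i) ∈ a)
    (hφ' : ∀ i, φ' (u p n i) ∈ a) {j : ℕ}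
    (h : ∀ i, φ' (u p n i) - φ (u p n i) ∈ a ^ j) (f : E p n) :
    φ' f - φ f - ∑ i, (φ' (u p n i) - φ (u p n i)) *
      algebraMap (W p n) A (coeff (Finsupp.single i 1) f) ∈ a ^ (j + 1) := by
  have hlow : f - MvPowerSeries.C (constantCoeff f) ∈ lowI _ _ (0 + 1) :=
    mem_lowI_one.mpr (by simp)
  obtain ⟨g, hg, -, hg1⟩ := exists_sum_X_mul hlow
  have hcc : ∀ i : Fin (n - 1),
      coeff (Finsupp.single i 1) (MvPowerSeries.C (constantCoeff f) : E p n) = 0 := fun i => by
    classical rw [coeff_C, if_neg (by simp)]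
  have hfe : f = MvPowerSeries.C (constantCoeff f) + ∑ i, u p n i * g i := by
    rw [show (∑ i, u p n i * g i) = f - MvPowerSeries.C (constantCoeff f) from hg.symm]; ring
  have hC : ∀ ψ : E p n →ₐ[W p n] A, ψ f =
      algebraMap (W p n) A (constantCoeff f) + ∑ i, ψ (u p n i) * ψ (g i) := fun ψ => by
    conv_lhs => rw [hfe]
    rw [map_add, map_sum]
    simp only [map_mul]
    congr 1
    exact ψ.commutes _
  rw [hC φ', hC φ, add_sub_add_left_eq_sub, ← Finset.sum_sub_distrib, ← Finset.sum_sub_distrib]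
  refine Ideal.sum_mem _ fun i _ => ?_
  have hgi : coeff (Finsupp.single i 1) f = constantCoeff (g i) := by
    rw [hg1 i, map_sub, hcc, sub_zero]
  rw [hgi]
  have e : φ' (u p n i) * φ' (g i) - φ (u p n i) * φ (g i) -
      (φ' (u p n i) - φ (u p n i)) * algebraMap (W p n) A (constantCoeff (g i)) =
      (φ' (u p n i) - φ (u p n i)) * (φ' (g i) - algebraMap (W p n) A (constantCoeff (g i))) +
      (φ' (g i) - φ (g i)) * φ (u p n i) := by ring
  rw [e, pow_succ]
  exact add_mem (Ideal.mul_mem_mul (h i) (algHom_sub_algebraMap φ' hφ' _))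
    (Ideal.mul_mem_mul (algHom_congr φ' φ le_rfl hφ' hφ h _) (hφ i))

end evalHom

/-! Completeness of E. -/

variable (p n)

/-- The maximal ideal of E. -/
def mE : Ideal (E p n) := RingHom.ker (res p n)

/-- Series whose degree k coefficients are divisible by p^(N-k). -/
def tI (N : ℕ) : Ideal (E p n) where
  carrier := {f | ∀ d, coeff d f ∈ (Ideal.span {(p : W p n)}) ^ (N - d.degree)}
  add_mem' hf hg d := by rw [map_add]; exact add_mem (hf d) (hg d)
  zero_mem' d := by simp
  smul_mem' c f hf d := by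
    classical
    rw [smul_eq_mul, coeff_mul]
    refine Ideal.sum_mem _ fun x hx => Ideal.mul_mem_left _ _ ?_
    rw [Finset.HasAntidiagonal.mem_antidiagonal] at hx
    refine Ideal.pow_le_pow_right ?_ (hf x.2)
    rw [← hx, map_add]; omega

variable {p n}

theorem mem_tI {N : ℕ} {f : E p n} :
    f ∈ tI p n N ↔ ∀ d, coeff d f ∈ (Ideal.span {(p : W p n)}) ^ (N - d.degree) := Iff.rfl

theorem mE_pow_eq (N : ℕ) : mE p n ^ N = tI p n N := by
  classical
  have hk : RingHom.ker (WittVector.constantCoeff (p := p) (R := K p n)) =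
      Ideal.span {(p : W p n)} := WittVector.ker_constantCoeff
  refine le_antisymm ?_ fun f hf => ?_
  · induction N with
    | zero => intro f _; rw [mem_tI]; intro d; simp
    | succ N ih =>
      rw [pow_succ, Ideal.mul_le]
      intro f hf g hg
      have hf' := ih hf
      rw [mem_tI] at hf' ⊢
      intro d
      rw [coeff_mul]
      refine Ideal.sum_mem _ fun x hx => ?_
      rw [Finset.HasAntidiagonal.mem_antidiagonal] at hx
      have hdeg : x.1.degree + x.2.degree = d.degree := by rw [← map_add, hx]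
      by_cases h2 : x.2 = 0
      · have hg0 : coeff x.2 g ∈ Ideal.span {(p : W p n)} := by
          rw [h2, coeff_zero_eq_constantCoeff_apply, ← hk, RingHom.mem_ker]
          exact hg
        have := Ideal.mul_mem_mul (hf' x.1) hg0
        rw [← pow_succ] at this
        refine Ideal.pow_le_pow_right ?_ this
        rw [h2, map_zero] at hdeg; omega
      · refine Ideal.mul_mem_right _ _ (Ideal.pow_le_pow_right ?_ (hf' x.1))
        have : x.2.degree ≠ 0 := by rwa [Ne, Finsupp.degree_eq_zero_iff]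
        omega
  · have hX : ∀ i, (X i : E p n) ∈ mE p n := fun i => by
      simp [mE, res]
    have hPm : Ideal.map (MvPowerSeries.C : W p n →+* E p n) (Ideal.span {(p : W p n)}) ≤
        mE p n := by
      rw [Ideal.map_span, Set.image_singleton, Ideal.span_le, Set.singleton_subset_iff]
      simp [mE, res]
    set T : MvPolynomial (Fin (n - 1)) (W p n) := truncTotal N f
    have hrest : f - (T : MvPowerSeries (Fin (n - 1)) (W p n)) ∈ lowI _ _ N := fun d hd => by
      rw [map_sub, MvPolynomial.coeff_coe, coeff_truncTotal _ hd, sub_self]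
    rw [← sub_add_cancel f (T : MvPowerSeries (Fin (n - 1)) (W p n))]
    refine add_mem (Ideal.pow_right_mono ?_ N (mem_span_pow hrest)) ?_
    · rw [Ideal.span_le]; rintro _ ⟨i, rfl⟩; exact hX i
    have hcoe : (T : MvPowerSeries (Fin (n - 1)) (W p n)) = ∑ d ∈ T.support,
        MvPowerSeries.C (T.coeff d) * ∏ i, (X i : E p n) ^ d i := by
      conv_lhs => rw [T.as_sum]
      rw [← MvPolynomial.coeToMvPowerSeries.ringHom_apply, map_sum]
      refine Finset.sum_congr rfl fun d _ => ?_
      rw [MvPolynomial.monomial_eq, map_mul, Finsupp.prod_fintype _ _ (fun _ => pow_zero _),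
        map_prod]
      simp
    rw [hcoe]
    refine Ideal.sum_mem _ fun d hd => ?_
    rw [MvPolynomial.mem_support_iff] at hd
    have hdN : d.degree < N := by
      by_contra h
      exact hd (coeff_truncTotal_eq_zero _ (not_lt.mp h))
    have h1 : (MvPowerSeries.C (T.coeff d) : E p n) ∈ mE p n ^ (N - d.degree) := by
      refine Ideal.pow_right_mono hPm _ ?_
      rw [← Ideal.map_pow]
      refine Ideal.mem_map_of_mem _ ?_
      rw [show T.coeff d = coeff d f from coeff_truncTotal _ hdN]
      exact hf d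
    have h2 : (∏ i, (X i : E p n) ^ d i) ∈ mE p n ^ d.degree := by
      rw [Finsupp.degree_eq_sum, ← Finset.prod_pow_eq_pow_sum]
      exact Ideal.prod_mem_prod fun i _ => Ideal.pow_mem_pow (hX i) _
    have := Ideal.mul_mem_mul h1 h2
    rwa [← pow_add, Nat.sub_add_cancel hdN.le] at this

instance isAdicComplete_mE : IsAdicComplete (mE p n) (E p n) where
  haus' f h := by
    refine MvPowerSeries.ext fun d => ?_
    rw [map_zero]
    refine eq_of_sub_mem_pow (a := Ideal.span {(p : W p n)}) fun N => ?_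
    have := h (N + d.degree)
    rw [SModEq.sub_mem, smul_eq_mul, Ideal.mul_top, sub_zero, mE_pow_eq, mem_tI] at this
    rw [sub_zero]
    simpa using this d
  prec' f h := by
    have h' : ∀ {a b}, a ≤ b → f a - f b ∈ tI p n a := fun {a b} hab => by
      have := h hab
      rwa [SModEq.sub_mem, smul_eq_mul, Ideal.mul_top, mE_pow_eq] at this
    have : ∀ d : Fin (n - 1) →₀ ℕ, ∃ L : W p n, ∀ m,
        coeff d (f (m + d.degree)) - L ∈ (Ideal.span {(p : W p n)}) ^ m := by
      intro d
      obtain ⟨L, hL⟩ := IsPrecomplete.prec (inferInstance : IsPrecomplete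
        (Ideal.span {(p : W p n)}) (W p n)) (f := fun m => coeff d (f (m + d.degree))) (by
          intro a b hab
          rw [SModEq.sub_mem, smul_eq_mul, Ideal.mul_top, ← map_sub]
          simpa using mem_tI.mp (h' (Nat.add_le_add_right hab d.degree)) d)
      exact ⟨L, fun m => by
        have := hL m; rwa [SModEq.sub_mem, smul_eq_mul, Ideal.mul_top] at this⟩
    choose g hg using this
    obtain ⟨G, hG⟩ : ∃ G : E p n, ∀ d, coeff d G = g d := ⟨fun d => g d, fun _ => rfl⟩
    refine ⟨G, fun N => ?_⟩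
    rw [SModEq.sub_mem, smul_eq_mul, Ideal.mul_top, mE_pow_eq, mem_tI]
    intro d
    rw [map_sub, hG]
    rcases Nat.lt_or_ge d.degree N with hlt | hge
    · simpa [Nat.sub_add_cancel hlt.le] using hg d (N - d.degree)
    · rw [Nat.sub_eq_zero_of_le hge, pow_zero, Ideal.one_eq_top]; trivial

theorem res_surjective : Function.Surjective (res p n) := fun y => by
  obtain ⟨c, rfl⟩ := WittVector.constantCoeff_surjective p y
  exact ⟨MvPowerSeries.C c, by simp [res]⟩

theorem isUnit_of_res_ne_zero {f : E p n} (h : res p n f ≠ 0) : IsUnit f := by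
  rw [MvPowerSeries.isUnit_iff_constantCoeff]
  exact WittVector.isUnit_of_coeff_zero_ne_zero _ h

end

end Vale.Agent.P217.Deform
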