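import Vale.Agent.P217.Deform.Tri
import Vale.Agent.P217.Iface

/-!
The lowest terms of a nice law at the closed point and of its derivatives in the parameters,
read off from the logarithm.
-/

namespace Vale.Agent.P217.Deform

noncomputable section

open MvPowerSeries

theorem log_lemma {L : Type*} [CommRing L] (G : FormalGroup L) (f : PowerSeries L) (c : L)
    {D : ℕ} (hf : f - (PowerSeries.X + PowerSeries.C c * PowerSeries.X ^ D) ∈ lowI Unit L (D + 1))
    (hlog : ev f G.toPowerSeries = ev f (X 0) + ev f (X 1)) :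
    G.toPowerSeries - (X 0 + X 1 + MvPowerSeries.C c * (X 0 ^ D + X 1 ^ D - (X 0 + X 1) ^ D)) ∈
      lowI _ L (D + 1) := by
  set r : PowerSeries L := f - (PowerSeries.X + PowerSeries.C c * PowerSeries.X ^ D) with hr
  have expand : ∀ {w : MvPowerSeries (Fin 2) L}, PowerSeries.HasSubst w →
      ev f w = w + MvPowerSeries.C c * w ^ D + ev r w := by
    intro w hw
    change PowerSeries.subst w f = w + MvPowerSeries.C c * w ^ D + PowerSeries.subst w r
    have e : f = PowerSeries.X + PowerSeries.C c * PowerSeries.X ^ D + r := by rw [hr]; ring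
    conv_lhs => rw [e]
    rw [PowerSeries.subst_add hw, PowerSeries.subst_add hw, PowerSeries.subst_mul hw,
      PowerSeries.subst_pow hw, PowerSeries.subst_X hw, PowerSeries.subst_C]
  have hG : PowerSeries.HasSubst G.toPowerSeries := hsubst_group G
  have low1 : ∀ {w : MvPowerSeries (Fin 2) L}, PowerSeries.HasSubst w → w ∈ lowI _ L 1 →
      ev r w ∈ lowI _ L (D + 1) := fun hw h1 => subst_mem_lowI (hs1 hw) (fun _ => h1) hf
  obtain ⟨hl, hl2⟩ := pl_sub_linear G (0 : Fin 2) 1
  rw [pl_X] at hl hl2
  rw [expand hG, expand (hsX 0), expand (hsX 1)] at hlog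
  have e : G.toPowerSeries - (X 0 + X 1 + MvPowerSeries.C c * (X 0 ^ D + X 1 ^ D - (X 0 + X 1) ^ D)) =
      ev r (X 0) + ev r (X 1) - ev r G.toPowerSeries -
        MvPowerSeries.C c * (G.toPowerSeries ^ D - (X 0 + X 1) ^ D) := by linear_combination hlog
  rw [e]
  refine sub_mem (sub_mem (add_mem (low1 (hsX 0) (X_mem_lowI_one 0))
    (low1 (hsX 1) (X_mem_lowI_one 1))) (low1 hG hl)) (Ideal.mul_mem_left _ _ ?_)
  exact pow_sub_pow_mem hl (add_mem (X_mem_lowI_one 0) (X_mem_lowI_one 1)) hl2 D

variable {p n : ℕ} [Fact p.Prime]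

/-- u_(i+1), with u_n = 1. -/
def vv {L : Type*} [One L] (a : Fin (n - 1) → L) (j : ℕ) : L :=
  if h : j < n - 1 then a ⟨j, h⟩ else 1

theorem logCoeff_zero_of_le {L : Type*} [Field L] (a : Fin (n - 1) → L) (i0 : ℕ)
    (h0 : ∀ j < i0, vv a j = 0) {m : ℕ} (hm : 1 ≤ m) (hmi : m ≤ i0) :
    logCoeff p n a m = 0 := by
  have hp := (Fact.out : p.Prime)
  obtain ⟨k, rfl⟩ : ∃ k, m = k + 1 := ⟨m - 1, by omega⟩
  rw [logCoeff, Finset.sum_eq_zero, mul_zero]
  intro i _
  split_ifs with hi h
  · have := h0 (i : ℕ) (by omega)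
    rw [vv, dif_pos h] at this
    rw [this, zero_pow (pow_ne_zero _ hp.ne_zero), mul_zero]
  · have := h0 (i : ℕ) (by omega)
    rw [vv, dif_neg h] at this
    exact absurd this one_ne_zero
  · rfl

theorem logCoeff_first {L : Type*} [Field L] (a : Fin (n - 1) → L) (i0 : ℕ) (hi0 : i0 < n)
    (h0 : ∀ j < i0, vv a j = 0) : logCoeff p n a (i0 + 1) = (p : L)⁻¹ * vv a i0 := by
  have hp := (Fact.out : p.Prime)
  rw [logCoeff, Finset.sum_eq_single ⟨i0, hi0⟩]
  · simp only [le_refl, if_true, Nat.sub_self, pow_zero, pow_one, logCoeff, one_mul]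
    rfl
  · intro i _ hne
    split_ifs with hi h
    · have := h0 (i : ℕ) (lt_of_le_of_ne hi fun he => hne (Fin.ext he))
      rw [vv, dif_pos h] at this
      rw [this, zero_pow (pow_ne_zero _ hp.ne_zero), mul_zero]
    · have := h0 (i : ℕ) (lt_of_le_of_ne hi fun he => hne (Fin.ext he))
      rw [vv, dif_neg h] at this
      exact absurd this one_ne_zero
    · rfl
  · intro h; exact absurd (Finset.mem_univ _) h

variable (p n) in
/-- The logarithm at a tuple. -/
def logSer {L : Type*} [Field L] (a : Fin (n - 1) → L) : PowerSeries L :=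
  PowerSeries.mk fun i => if i = p ^ padicValNat p i then logCoeff p n a (padicValNat p i) else 0

theorem isLogSeries_logSer {L : Type*} [Field L] (a : Fin (n - 1) → L) :
    IsLogSeries p n a (logSer p n a) := by
  refine ⟨fun m => ?_, fun i hi => ?_⟩
  · rw [logSer, PowerSeries.coeff_mk, padicValNat.prime_pow, if_pos rfl]
  · rw [logSer, PowerSeries.coeff_mk, if_neg (hi _)]

theorem logSer_low {L : Type*} [Field L] (a : Fin (n - 1) → L) (i0 : ℕ) (hi0 : i0 < n)
    (h0 : ∀ j < i0, vv a j = 0) :
    logSer p n a - (PowerSeries.X + PowerSeries.C ((p : L)⁻¹ * vv a i0) *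
      PowerSeries.X ^ p ^ (i0 + 1)) ∈ lowI Unit L (p ^ (i0 + 1) + 1) := by
  have hp := (Fact.out : p.Prime)
  intro d hd
  have hdeg : d.degree = d () := by
    rw [Finsupp.degree_eq_sum]; exact Fintype.sum_unique _
  rw [← PowerSeries.coeff_def (R := L) (s := d) rfl]
  simp only [map_sub, map_add, PowerSeries.coeff_X, PowerSeries.coeff_C_mul,
    PowerSeries.coeff_X_pow, logSer, PowerSeries.coeff_mk]
  rw [hdeg] at hd
  generalize d () = k at hd
  have h2 := two_le_pow_succ (p := p) i0
  by_cases hk : k = p ^ padicValNat p k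
  · rw [if_pos hk]
    set m := padicValNat p k with hm
    have hmle : m ≤ i0 + 1 := by
      rw [← Nat.pow_le_pow_iff_right hp.one_lt, ← hk]; omega
    rcases Nat.eq_zero_or_pos m with h | h
    · rw [h, pow_zero] at hk
      rw [h, logCoeff, if_pos hk, if_neg (by omega)]
      ring
    · have hk1 : k ≠ 1 := by
        intro h1
        rw [h1, padicValNat_one_right] at hm
        omega
      rcases Nat.lt_or_ge m (i0 + 1) with hlt | hge
      · rw [logCoeff_zero_of_le a i0 h0 h (by omega), if_neg hk1, if_neg]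
        · ring
        · rw [hk]; exact fun he => absurd (Nat.pow_right_injective hp.two_le he) (by omega)
      · rw [show m = i0 + 1 by omega] at hk ⊢
        rw [logCoeff_first a i0 hi0 h0, if_neg hk1, if_pos hk]
        ring
  · rw [if_neg hk, if_neg, if_neg]
    · ring
    · intro he; exact hk (by rw [he, padicValNat.prime_pow])
    · intro he; exact hk (by rw [he]; simp)

variable (p n) in
/-- The endomorphism of E keeping only the variable of index i0. -/
def keep (i0 : ℕ) : E p n →ₐ[W p n] E p n :=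
  MvPowerSeries.substAlgHom (a := fun j : Fin (n - 1) =>
    if (j : ℕ) = i0 then (X j : MvPowerSeries (Fin (n - 1)) (W p n)) else 0)
    (hasSubst_of_constantCoeff_zero fun j => by split_ifs <;> simp)

theorem keep_u (i0 : ℕ) (j : Fin (n - 1)) :
    keep p n i0 (u p n j) = if (j : ℕ) = i0 then u p n j else 0 :=
  MvPowerSeries.substAlgHom_X _ _

theorem constantCoeff_keep (i0 : ℕ) (f : E p n) :
    constantCoeff (keep p n i0 f) = constantCoeff f := by
  have hb : HasSubst (fun j : Fin (n - 1) =>
      if (j : ℕ) = i0 then (X j : MvPowerSeries (Fin (n - 1)) (W p n)) else 0) :=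
    hasSubst_of_constantCoeff_zero fun j => by split_ifs <;> simp
  rw [keep, substAlgHom_apply, constantCoeff_subst hb, finsum_eq_single _ 0]
  · simp
  · intro d hd
    obtain ⟨j, hj⟩ : ∃ j, d j ≠ 0 := by
      by_contra! h
      exact hd (Finsupp.ext h)
    rw [Finsupp.prod, map_prod, Finset.prod_eq_zero (Finsupp.mem_support_iff.mpr hj), smul_zero]
    rw [map_pow]
    split_ifs <;> simp [zero_pow hj]

theorem coeff_keep_single (i : Fin (n - 1)) (f : E p n) :
    coeff (Finsupp.single i 1) (keep p n (i : ℕ) f) = coeff (Finsupp.single i 1) f := by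
  classical
  have hb : HasSubst (fun j : Fin (n - 1) =>
      if (j : ℕ) = (i : ℕ) then (X j : MvPowerSeries (Fin (n - 1)) (W p n)) else 0) :=
    hasSubst_of_constantCoeff_zero fun j => by split_ifs <;> simp
  rw [keep, substAlgHom_apply, coeff_subst hb, finsum_eq_single _ (Finsupp.single i 1)]
  · rw [Finsupp.prod_single_index (h := fun (j : Fin (n - 1)) e => (if (j : ℕ) = (i : ℕ) then
      (X j : MvPowerSeries (Fin (n - 1)) (W p n)) else 0) ^ e) (pow_zero _), pow_one, if_pos rfl]
    simp
  · intro d hd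
    by_cases h : ∀ j, j ≠ i → d j = 0
    · have : d = Finsupp.single i (d i) := by
        ext j
        rcases eq_or_ne j i with rfl | hj
        · simp
        · simp [h j hj, hj]
      rw [this, Finsupp.prod_single_index (h := fun (j : Fin (n - 1)) e => (if (j : ℕ) = (i : ℕ) then
        (X j : MvPowerSeries (Fin (n - 1)) (W p n)) else 0) ^ e) (pow_zero _), if_pos rfl,
        coeff_X_pow, if_neg, smul_zero]
      intro he
      exact hd (this.trans he.symm)
    · push Not at h
      obtain ⟨j, hj, hdj⟩ := h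
      rw [Finsupp.prod, Finset.prod_eq_zero (Finsupp.mem_support_iff.mpr hdj), map_zero,
        smul_zero]
      rw [if_neg fun he => hj (Fin.ext he), zero_pow hdj]

theorem exists_choose_top (i0 : ℕ) :
    ∃ M, ¬ p ∣ M ∧ Nat.choose (p ^ (i0 + 1)) (p ^ i0) = p * M := by
  have hp := (Fact.out : p.Prime)
  have hlt : p ^ i0 ≤ p ^ (i0 + 1) := Nat.pow_le_pow_right hp.pos (by omega)
  have hne : Nat.choose (p ^ (i0 + 1)) (p ^ i0) ≠ 0 := (Nat.choose_pos hlt).ne'
  have hfac := Nat.factorization_choose_prime_pow hp hlt (pow_ne_zero _ hp.ne_zero)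
  rw [hp.factorization_pow, Finsupp.single_eq_same, show i0 + 1 - i0 = 1 by omega] at hfac
  obtain ⟨e, M, hM, he⟩ := Nat.exists_eq_pow_mul_and_not_dvd hne p hp.ne_one
  refine ⟨M, hM, ?_⟩
  rw [he, Nat.factorization_mul (pow_ne_zero _ hp.ne_zero) (by
      rintro rfl; exact hM (dvd_zero p)), Finsupp.add_apply, hp.factorization_pow,
    Finsupp.single_eq_same, Nat.factorization_eq_zero_of_not_dvd hM, add_zero] at hfac
  rw [he, hfac, pow_one]

instance instCharZeroW : CharZero (W p n) := by
  obtain ⟨q, hq⟩ := CharP.exists (W p n)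
  rcases CharP.char_is_prime_or_zero (W p n) q with h | h
  · exfalso
    have h0 : ((q : ℕ) : K p n) = 0 := by
      rw [← map_natCast (WittVector.constantCoeff (p := p) (R := K p n)), CharP.cast_eq_zero,
        map_zero]
    rw [CharP.cast_eq_zero_iff (K p n) p, Nat.prime_dvd_prime_iff_eq Fact.out h] at h0
    subst h0
    exact WittVector.p_nonzero p (K p n) (CharP.cast_eq_zero (W p n) p)
  · subst h
    exact CharP.charP_to_charZero _

instance instCharZeroE : CharZero (E p n) :=
  charZero_of_injective_ringHom (MvPowerSeries.C_injective : Function.Injective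
    (MvPowerSeries.C : W p n →+* E p n))

/-- The coefficients of a nice law after keeping one parameter. -/
theorem keep_coeff {F : FormalGroup (E p n)} (hF : IsNice p n F) {i0 : ℕ} (hi0 : i0 < n) :
    (∀ d : Fin 2 →₀ ℕ, 2 ≤ d.degree → d.degree < p ^ (i0 + 1) →
      keep p n i0 (coeff d F.toPowerSeries) = 0) ∧
    ∃ M, ¬ p ∣ M ∧ keep p n i0 (coeff (idx p (p ^ (i0 + 1))) F.toPowerSeries) =
      -(M : E p n) * vv (fun j => keep p n i0 (u p n j)) i0 := by
  classical
  have hp := (Fact.out : p.Prime)
  let x : E p n →+* FractionRing (E p n) :=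
    (algebraMap (E p n) (FractionRing (E p n))).comp (keep p n i0 : E p n →+* E p n)
  have : CharZero (FractionRing (E p n)) :=
    charZero_of_injective_algebraMap (IsFractionRing.injective (E p n) _)
  let a : Fin (n - 1) → FractionRing (E p n) := fun j => x (u p n j)
  have ha : ∀ j, vv a j = algebraMap (E p n) (FractionRing (E p n))
      (vv (fun j => keep p n i0 (u p n j)) j) := fun j => by
    simp only [vv]; split_ifs with h
    · rfl
    · rw [map_one]
  have h0 : ∀ j < i0, vv a j = 0 := fun j hj => by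
    rw [ha, vv, dif_pos (show j < n - 1 by omega), keep_u, if_neg (by simp only; omega), map_zero]
  have hlog := hF.log _ x _ (isLogSeries_logSer a)
  have h2 := two_le_pow_succ (p := p) i0
  have H := log_lemma (F.map x) _ _ (logSer_low a i0 hi0 h0) hlog
  have key : ∀ d : Fin 2 →₀ ℕ, 2 ≤ d.degree → d.degree ≤ p ^ (i0 + 1) →
      x (coeff d F.toPowerSeries) = (p : FractionRing (E p n))⁻¹ * vv a i0 *
        coeff d (X 0 ^ p ^ (i0 + 1) + X 1 ^ p ^ (i0 + 1) - (X 0 + X 1) ^ p ^ (i0 + 1)) := by
    intro d hd hdle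
    have := H d (Nat.lt_succ_of_le hdle)
    rw [map_sub, sub_eq_zero, map_add, map_add, coeff_C_mul, FormalGroup.map_toPowerSeries,
      coeff_map, coeff_X, coeff_X, if_neg, if_neg, zero_add, zero_add] at this
    · exact this
    · intro he; rw [he, Finsupp.degree_single] at hd; omega
    · intro he; rw [he, Finsupp.degree_single] at hd; omega
  refine ⟨fun d hd hlt => ?_, ?_⟩
  · have := key d hd hlt.le
    have hz : ∀ {w : MvPowerSeries (Fin 2) (FractionRing (E p n))}, w ∈ lowI _ _ 1 →
        coeff d (w ^ p ^ (i0 + 1)) = 0 := fun hw =>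
      lowI_pow hw _ d (by rw [Nat.mul_one]; exact hlt)
    rw [map_sub, map_add, hz (X_mem_lowI_one 0), hz (X_mem_lowI_one 1),
      hz (add_mem (X_mem_lowI_one 0) (X_mem_lowI_one 1))] at this
    apply IsFractionRing.injective (E p n) (FractionRing (E p n))
    rw [map_zero]
    simpa [x] using this
  · obtain ⟨M, hM, hc⟩ := exists_choose_top (p := p) i0
    refine ⟨M, hM, ?_⟩
    have hq : qd p (p ^ (i0 + 1)) = p ^ i0 := by rw [qd_pow]; rfl
    have := key (idx p (p ^ (i0 + 1))) (by rw [degree_idx h2]; exact h2) (by rw [degree_idx h2])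
    have hlt : p ^ i0 < p ^ (i0 + 1) := Nat.pow_lt_pow_right hp.one_lt (by omega)
    have hpos : 1 ≤ p ^ i0 := Nat.one_le_pow _ _ hp.pos
    rw [map_sub, map_add, coeff_X_pow, coeff_X_pow, if_neg, if_neg, zero_add, idx, hq,
      coeff_X_add_X_pow _ _ _ (by omega), hc] at this
    · apply IsFractionRing.injective (E p n) (FractionRing (E p n))
      rw [map_mul, ← ha, map_neg, map_natCast, idx, hq]
      refine this.trans ?_
      have hp0 : (p : FractionRing (E p n)) ≠ 0 := Nat.cast_ne_zero.mpr hp.ne_zero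
      push_cast
      field_simp
      ring
    · intro he
      have := DFunLike.congr_fun he 0
      simp [idx, hq, e2, hp.ne_zero] at this
      try omega
    · intro he
      have := DFunLike.congr_fun he 1
      simp [idx, hq, e2, hp.ne_zero] at this
      try omega

theorem res_eq (f : E p n) : res p n f = WittVector.constantCoeff (constantCoeff f) := rfl

theorem natCast_K_ne_zero {M : ℕ} (hM : ¬ p ∣ M) : (M : K p n) ≠ 0 := by
  rwa [Ne, CharP.cast_eq_zero_iff (K p n) p M]

/-- F at the closed point begins with a unit multiple of C_(p^n). -/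
theorem res_coeff {F : FormalGroup (E p n)} (hF : IsNice p n F) (hn : 1 ≤ n) :
    (∀ d : Fin 2 →₀ ℕ, 2 ≤ d.degree → d.degree < p ^ n →
      res p n (coeff d F.toPowerSeries) = 0) ∧
    res p n (coeff (idx p (p ^ n)) F.toPowerSeries) ≠ 0 := by
  obtain ⟨h1, M, hM, h2⟩ := keep_coeff hF (i0 := n - 1) (by omega)
  rw [show n - 1 + 1 = n by omega] at h1 h2
  refine ⟨fun d hd hlt => ?_, ?_⟩
  · rw [res_eq, ← constantCoeff_keep (n - 1), h1 d hd hlt]
    simp
  · rw [res_eq, ← constantCoeff_keep (n - 1), h2, vv, dif_neg (by omega), mul_one, map_neg,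
      map_natCast, map_neg, map_natCast, neg_ne_zero]
    exact natCast_K_ne_zero hM

variable (p n) in
/-- The coefficientwise derivative in u_(i+1) at the closed point, lifted to E. -/
def du (F : FormalGroup (E p n)) (i : Fin (n - 1)) : MvPowerSeries (Fin 2) (E p n) :=
  fun d => MvPowerSeries.C (coeff (Finsupp.single i 1) (coeff d F.toPowerSeries))

theorem coeff_du (F : FormalGroup (E p n)) (i : Fin (n - 1)) (d : Fin 2 →₀ ℕ) :
    coeff d (du p n F i) = MvPowerSeries.C (coeff (Finsupp.single i 1) (coeff d F.toPowerSeries)) := rfl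

theorem res_du {F : FormalGroup (E p n)} (hF : IsNice p n F) (i : Fin (n - 1)) :
    (∀ d : Fin 2 →₀ ℕ, d.degree < p ^ ((i : ℕ) + 1) → res p n (coeff d (du p n F i)) = 0) ∧
    res p n (coeff (idx p (p ^ ((i : ℕ) + 1))) (du p n F i)) ≠ 0 := by
  classical
  obtain ⟨h1, M, hM, h2⟩ := keep_coeff hF (i0 := (i : ℕ)) (by omega)
  refine ⟨fun d hlt => ?_, ?_⟩
  · rw [coeff_du, res_eq, constantCoeff_C]
    by_cases hd : 2 ≤ d.degree
    · rw [← coeff_keep_single i, h1 d hd hlt, map_zero, map_zero]
    · have hne : (Finsupp.single i 1 : Fin (n - 1) →₀ ℕ) ≠ 0 := by simp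
      have h : coeff d F.toPowerSeries = 0 ∨ coeff d F.toPowerSeries = 1 := by
        rw [degree_fin_two] at hd
        rcases (show (d 0 = 0 ∧ d 1 = 0) ∨ (d 0 = 1 ∧ d 1 = 0) ∨ (d 0 = 0 ∧ d 1 = 1) by omega)
          with ⟨a, b⟩ | ⟨a, b⟩ | ⟨a, b⟩
        · left
          rw [show d = 0 by ext s; fin_cases s <;> assumption,
            coeff_zero_eq_constantCoeff_apply, F.zero_constantCoeff]
        · right
          rw [show d = Finsupp.single 0 1 by ext s; fin_cases s <;> simp [a, b], F.lin_coeff_X]
        · right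
          rw [show d = Finsupp.single 1 1 by ext s; fin_cases s <;> simp [a, b], F.lin_coeff_Y]
      rcases h with h | h <;> rw [h] <;> simp [coeff_one, hne]
  · rw [coeff_du, res_eq, constantCoeff_C, ← coeff_keep_single i, h2, vv, dif_pos i.2,
      keep_u, if_pos rfl, ← map_natCast (MvPowerSeries.C : W p n →+* E p n) M, ← map_neg, coeff_C_mul, u,
      coeff_index_single_self_X, mul_one, map_neg, map_natCast, neg_ne_zero]
    exact natCast_K_ne_zero hM

variable (p n) in
/-- The cocycle of the parameter u_(i+1), as a series over E. -/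
def bE (F : FormalGroup (E p n)) (i : Fin (n - 1)) : MvPowerSeries (Fin 2) (E p n) :=
  du p n F i * Ring.inverse (Pd F F.toPowerSeries)

theorem res_bE {F : FormalGroup (E p n)} (hF : IsNice p n F) (i : Fin (n - 1)) :
    (∀ d : Fin 2 →₀ ℕ, d.degree < p ^ ((i : ℕ) + 1) → res p n (coeff d (bE p n F i)) = 0) ∧
    res p n (coeff (idx p (p ^ ((i : ℕ) + 1))) (bE p n F i)) ≠ 0 := by
  obtain ⟨h1, h2⟩ := res_du hF i
  have hP : constantCoeff (Pd F F.toPowerSeries) = 1 := by
    have hb := hs2 (hsubst_group F) (hsubst_zero (R := E p n) (τ := Fin 2))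
    have h : constantCoeff (subst ![F.toPowerSeries, 0] (tailH F - MvPowerSeries.C 1)) = 0 :=
      constantCoeff_subst_eq_zero hb (fun s => by fin_cases s <;> simp [F.zero_constantCoeff])
        (by rw [map_sub, constantCoeff_C, constantCoeff_tailH, sub_self])
    rw [subst_sub hb, subst_C, map_sub, constantCoeff_C, sub_eq_zero] at h
    exact h
  have hinv : constantCoeff (Ring.inverse (Pd F F.toPowerSeries)) = 1 := by
    have := congrArg constantCoeff (Ring.mul_inverse_cancel _ (isUnit_Pd F (hsubst_group F)))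
    rwa [map_mul, hP, one_mul, map_one] at this
  have hlow : MvPowerSeries.map (res p n) (du p n F i) ∈ lowI _ _ (p ^ ((i : ℕ) + 1)) :=
    fun d hd => by rw [coeff_map]; exact h1 d hd
  have hdiff : MvPowerSeries.map (res p n) (bE p n F i) - MvPowerSeries.map (res p n) (du p n F i) ∈
      lowI _ _ (p ^ ((i : ℕ) + 1) + 1) := by
    rw [bE, map_mul, ← mul_sub_one]
    refine lowI_mul hlow (mem_lowI_one.mpr ?_)
    rw [map_sub, constantCoeff_map, hinv, map_one, map_one, sub_self]
  refine ⟨fun d hd => ?_, fun h => h2 ?_⟩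
  · have := hdiff d (by omega)
    rwa [map_sub, coeff_map, coeff_map, h1 d hd, sub_zero] at this
  · have := hdiff (idx p (p ^ ((i : ℕ) + 1))) (by
      rw [degree_idx (two_le_pow_succ _)]; omega)
    rwa [map_sub, coeff_map, coeff_map, h, zero_sub, neg_eq_zero] at this

theorem bnd_map {R S : Type*} [CommRing R] [CommRing S] (φ : R →+* S) (Φ : FormalGroup R)
    (e : ℕ) : MvPowerSeries.map φ (bnd Φ e) = bnd (Φ.map φ) e := by
  simp [bnd, map_sub, map_pow, MvPowerSeries.map_X]

theorem res_bnd {F : FormalGroup (E p n)} (hF : IsNice p n F) (hn : 1 ≤ n) {e : ℕ} (he : 1 ≤ e) :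
    (∀ d : Fin 2 →₀ ℕ, d.degree < dg p n e → res p n (coeff d (bnd F e)) = 0) ∧
    res p n (coeff (idx p (dg p n e)) (bnd F e)) ≠ 0 := by
  classical
  have hp := (Fact.out : p.Prime)
  obtain ⟨h1, h2⟩ := res_coeff hF hn
  set Φ := F.map (res p n) with hΦ
  obtain ⟨hl, hl2⟩ := pl_sub_linear Φ (0 : Fin 2) 1
  rw [pl_X] at hl hl2
  suffices H : bnd Φ e ∈ lowI _ _ (dg p n e) ∧ coeff (idx p (dg p n e)) (bnd Φ e) ≠ 0 by
    refine ⟨fun d hd => ?_, ?_⟩
    · rw [← coeff_map, bnd_map]; exact H.1 d hd
    · rw [← coeff_map, bnd_map]; exact H.2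
  by_cases hpow : e = p ^ padicValNat p e
  · rw [dg, if_pos hpow]
    set s := padicValNat p e with hs
    have : CharP (MvPowerSeries (Fin 2) (K p n)) p :=
      charP_of_injective_ringHom (MvPowerSeries.C_injective) p
    set N := Φ.toPowerSeries - X 0 - X 1 with hN
    have hb : bnd Φ e = N ^ p ^ s := by
      rw [bnd, hpow, hN, sub_pow_char_pow, sub_pow_char_pow]
    have hNlow : N ∈ lowI _ _ (p ^ n) := by
      intro d hd
      by_cases h : 2 ≤ d.degree
      · rw [hN, map_sub, map_sub, coeff_X, coeff_X, if_neg, if_neg, sub_zero, sub_zero, hΦ,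
          FormalGroup.map_toPowerSeries, coeff_map, h1 d h hd]
        · intro he'; rw [he', Finsupp.degree_single] at h; omega
        · intro he'; rw [he', Finsupp.degree_single] at h; omega
      · rw [hN, sub_sub]; exact hl2 d (by omega)
    have hpn2 : 2 ≤ p ^ n := by
      simpa [show n - 1 + 1 = n by omega] using two_le_pow_succ (p := p) (n - 1)
    rw [hb]
    refine ⟨?_, ?_⟩
    · have := lowI_pow hNlow (p ^ s)
      rwa [← pow_add, Nat.add_comm] at this
    · have hidx : idx p (p ^ (n + s)) = p ^ s • idx p (p ^ n) := by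
        rw [idx, idx, qd_pow, qd_pow, show n + s - 1 = (n - 1) + s by omega, pow_add, pow_add,
          mul_comm (p ^ n), mul_comm (p ^ (n - 1)), ← Nat.mul_sub]
        ext j; fin_cases j <;> simp [e2]
      have : ExpChar (K p n) p := ExpChar.prime hp
      rw [hidx, ← map_iterateFrobenius_expand p hp.ne_zero, coeff_map, coeff_expand_smul,
        iterateFrobenius_def]
      refine pow_ne_zero _ ?_
      have hd2 : 2 ≤ (idx p (p ^ n)).degree := by rw [degree_idx hpn2]; exact hpn2
      rw [hN, map_sub, map_sub, coeff_X, coeff_X, if_neg, if_neg, sub_zero, sub_zero, hΦ,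
        FormalGroup.map_toPowerSeries, coeff_map]
      · exact h2
      · intro he'; rw [he', Finsupp.degree_single] at hd2; omega
      · intro he'; rw [he', Finsupp.degree_single] at hd2; omega
  · rw [dg, if_neg hpow]
    have he2 : 2 ≤ e := by
      by_contra h
      apply hpow
      rw [show e = 1 by omega]; simp
    refine ⟨?_, ?_⟩
    · refine sub_mem (sub_mem ?_ ?_) ?_
      · simpa using lowI_pow hl e
      · simpa using lowI_pow (X_mem_lowI_one (R := K p n) (0 : Fin 2)) e
      · simpa using lowI_pow (X_mem_lowI_one (R := K p n) (1 : Fin 2)) e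
    · have hlt := qd_lt (p := p) he2
      have hpos := one_le_qd (p := p) e
      rw [bnd, map_sub, map_sub, coeff_X_pow, coeff_X_pow, if_neg, if_neg, sub_zero, sub_zero,
        idx, coeff_pow_of_linear hl hl2 _ _ _ (by omega)]
      · have hq : qd p e = p ^ padicValNat p e := by rw [qd, if_neg hpow]
        obtain ⟨v, m, hm, hem⟩ := Nat.exists_eq_pow_mul_and_not_dvd (n := e) (by omega) p hp.ne_one
        have hv : padicValNat p e = v := by
          rw [hem, padicValNat.mul (pow_ne_zero v hp.ne_zero)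
            (fun h => hm (by rw [h]; exact dvd_zero p)), padicValNat.prime_pow,
            padicValNat.eq_zero_of_not_dvd hm, add_zero]
        rw [hq, hv, hem]
        refine natCast_K_ne_zero ?_
        exact not_dvd_of_modEq p (choose_pow_mul p v m) hm
      · intro he'
        have := DFunLike.congr_fun he' 0
        simp [idx, e2] at this
        omega
      · intro he'
        have := DFunLike.congr_fun he' 1
        simp [idx, e2] at this
        omega

end

end Vale.Agent.P217.Deform
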