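import Mathlib

/-!
Power series with coefficients in an ideal, congruences under substitution, and series without
terms of low degree.
-/

namespace Vale.Agent.P217.Deform

noncomputable section

open MvPowerSeries

variable {σ τ : Type*} {R S : Type*} [CommRing R] [CommRing S]

/-- The series with all coefficients in `I`. -/
def cI (σ : Type*) (I : Ideal R) : Ideal (MvPowerSeries σ R) :=
  RingHom.ker (MvPowerSeries.map (Ideal.Quotient.mk I))

theorem mem_cI {I : Ideal R} {f : MvPowerSeries σ R} :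
    f ∈ cI σ I ↔ ∀ d, coeff d f ∈ I := by
  simp only [cI, RingHom.mem_ker, MvPowerSeries.ext_iff, coeff_map, map_zero,
    Ideal.Quotient.eq_zero_iff_mem]

theorem map_mk_eq_iff {I : Ideal R} {f g : MvPowerSeries σ R} :
    MvPowerSeries.map (Ideal.Quotient.mk I) f = MvPowerSeries.map (Ideal.Quotient.mk I) g ↔
      f - g ∈ cI σ I := by
  rw [cI, RingHom.mem_ker, map_sub, sub_eq_zero]

theorem cI_mono {I J : Ideal R} (h : I ≤ J) {f : MvPowerSeries σ R} (hf : f ∈ cI σ I) :
    f ∈ cI σ J := mem_cI.mpr fun d => h (mem_cI.mp hf d)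

theorem C_mem_cI {I : Ideal R} {c : R} (hc : c ∈ I) : (C c : MvPowerSeries σ R) ∈ cI σ I := by
  classical
  rw [mem_cI]; intro d; rw [coeff_C]; split_ifs
  · exact hc
  · exact I.zero_mem

theorem mul_eq_zero_of_mem {I a : Ideal R} (h : I * a = ⊥) {f g : MvPowerSeries σ R}
    (hf : f ∈ cI σ I) (hg : g ∈ cI σ a) : f * g = 0 := by
  classical
  ext d
  rw [coeff_mul, map_zero]
  refine Finset.sum_eq_zero fun x _ => ?_
  have := Ideal.mul_mem_mul (mem_cI.mp hf x.1) (mem_cI.mp hg x.2)
  rwa [h, Ideal.mem_bot] at this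

theorem mul_eq_mul_of_sub_mem {I a : Ideal R} (h : I * a = ⊥) {t f g : MvPowerSeries σ R}
    (ht : t ∈ cI σ I) (hfg : f - g ∈ cI σ a) : t * f = t * g := by
  rw [← sub_eq_zero, ← mul_sub]; exact mul_eq_zero_of_mem h ht hfg

theorem subst_mem_cI {I : Ideal R} {b : σ → MvPowerSeries τ R} (hb : HasSubst b)
    {f : MvPowerSeries σ R} (hf : f ∈ cI σ I) : subst b f ∈ cI τ I := by
  rw [mem_cI]; intro e
  rw [coeff_subst hb]
  refine finsum_induction (fun x : R => x ∈ I) I.zero_mem (fun _ _ => I.add_mem) fun d => ?_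
  rw [smul_eq_mul]
  exact I.mul_mem_right _ (mem_cI.mp hf d)

theorem prod_sub_mem {J : Ideal (MvPowerSeries τ R)} {b b' : σ → MvPowerSeries τ R}
    (h : ∀ s, b s - b' s ∈ J) (d : σ →₀ ℕ) :
    (d.prod fun s e => b s ^ e) - (d.prod fun s e => b' s ^ e) ∈ J := by
  rw [← Ideal.Quotient.eq, map_finsuppProd, map_finsuppProd]
  refine Finsupp.prod_congr fun s _ => ?_
  rw [map_pow, map_pow, Ideal.Quotient.eq.mpr (h s)]

theorem subst_sub_subst_mem {a : Ideal R} {b b' : σ → MvPowerSeries τ R} (hb : HasSubst b)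
    (hb' : HasSubst b') (h : ∀ s, b s - b' s ∈ cI τ a) (f : MvPowerSeries σ R) :
    subst b f - subst b' f ∈ cI τ a := by
  rw [← map_mk_eq_iff, map_subst hb, map_subst hb']
  congr 1
  funext s
  exact map_mk_eq_iff.mpr (h s)

theorem subst_congr_small {I a : Ideal R} (hIa : I * a = ⊥) {b b' : σ → MvPowerSeries τ R}
    (hb : HasSubst b) (hb' : HasSubst b') (h : ∀ s, b s - b' s ∈ cI τ a)
    {f : MvPowerSeries σ R} (hf : f ∈ cI σ I) : subst b f = subst b' f := by
  ext e
  rw [coeff_subst hb, coeff_subst hb']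
  refine finsum_congr fun d => ?_
  rw [smul_eq_mul, smul_eq_mul, ← sub_eq_zero, ← mul_sub, ← map_sub]
  have := Ideal.mul_mem_mul (mem_cI.mp hf d) (mem_cI.mp (prod_sub_mem h d) e)
  rwa [hIa, Ideal.mem_bot] at this

theorem map_mem_cI {I : Ideal R} {J : Ideal S} (φ : R →+* S) (h : ∀ x ∈ I, φ x ∈ J)
    {f : MvPowerSeries σ R} (hf : f ∈ cI σ I) : MvPowerSeries.map φ f ∈ cI σ J :=
  mem_cI.mpr fun d => by rw [coeff_map]; exact h _ (mem_cI.mp hf d)

/-- The series without terms of degree less than `N`. -/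
def lowI (σ R : Type*) [CommRing R] (N : ℕ) : Ideal (MvPowerSeries σ R) where
  carrier := {f | ∀ d, d.degree < N → coeff d f = 0}
  add_mem' hf hg d hd := by rw [map_add, hf d hd, hg d hd, add_zero]
  zero_mem' _ _ := map_zero _
  smul_mem' c f hf d hd := by
    classical
    rw [smul_eq_mul, coeff_mul]
    refine Finset.sum_eq_zero fun x hx => ?_
    rw [Finset.HasAntidiagonal.mem_antidiagonal] at hx
    rw [hf x.2 (lt_of_le_of_lt (by rw [← hx, map_add]; exact Nat.le_add_left _ _) hd), mul_zero]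

theorem mem_lowI {N : ℕ} {f : MvPowerSeries σ R} :
    f ∈ lowI σ R N ↔ ∀ d, d.degree < N → coeff d f = 0 := Iff.rfl

theorem mem_lowI_zero (f : MvPowerSeries σ R) : f ∈ lowI σ R 0 := fun _ hd => absurd hd (by simp)

theorem lowI_anti {M N : ℕ} (h : M ≤ N) : lowI σ R N ≤ lowI σ R M :=
  fun _ hf d hd => hf d (hd.trans_le h)

theorem mem_lowI_one {f : MvPowerSeries σ R} : f ∈ lowI σ R 1 ↔ constantCoeff f = 0 := by
  constructor
  · intro h
    rw [← coeff_zero_eq_constantCoeff_apply]
    exact h 0 (by simp)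
  · intro h d hd
    rw [Nat.lt_one_iff, Finsupp.degree_eq_zero_iff] at hd
    rw [hd, coeff_zero_eq_constantCoeff_apply, h]

theorem lowI_mul {M N : ℕ} {f g : MvPowerSeries σ R} (hf : f ∈ lowI σ R M)
    (hg : g ∈ lowI σ R N) : f * g ∈ lowI σ R (M + N) := by
  classical
  intro d hd
  rw [coeff_mul]
  refine Finset.sum_eq_zero fun x hx => ?_
  rw [Finset.HasAntidiagonal.mem_antidiagonal] at hx
  have h : x.1.degree + x.2.degree < M + N := by rw [← map_add, hx]; exact hd
  rcases lt_or_ge x.1.degree M with h1 | h1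
  · rw [hf _ h1, zero_mul]
  · rw [hg _ (by omega), mul_zero]

theorem lowI_pow {M : ℕ} {f : MvPowerSeries σ R} (hf : f ∈ lowI σ R M) (k : ℕ) :
    f ^ k ∈ lowI σ R (k * M) := by
  induction k with
  | zero => rw [Nat.zero_mul]; exact mem_lowI_zero _
  | succ k ih => rw [pow_succ, Nat.succ_mul]; exact lowI_mul ih hf

theorem X_mem_lowI_one (s : σ) : (X s : MvPowerSeries σ R) ∈ lowI σ R 1 :=
  mem_lowI_one.mpr (constantCoeff_X s)

theorem prod_mem_lowI {b : σ → MvPowerSeries τ R} (hb : ∀ s, b s ∈ lowI τ R 1) (d : σ →₀ ℕ) :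
    (d.prod fun s e => b s ^ e) ∈ lowI τ R d.degree := by
  classical
  induction d using Finsupp.induction with
  | zero => simpa using mem_lowI_zero _
  | single_add s k d hs hk ih =>
    rw [Finsupp.prod_add_index' (fun _ => pow_zero _) (fun _ _ _ => pow_add _ _ _),
      Finsupp.prod_single_index (h := fun s e => b s ^ e) (pow_zero _), map_add,
      Finsupp.degree_single]
    refine lowI_mul ?_ ih
    simpa using lowI_pow (hb s) k

theorem subst_mem_lowI {N : ℕ} {b : σ → MvPowerSeries τ R} (hb : HasSubst b)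
    (hb1 : ∀ s, b s ∈ lowI τ R 1) {f : MvPowerSeries σ R} (hf : f ∈ lowI σ R N) :
    subst b f ∈ lowI τ R N := by
  intro e he
  rw [coeff_subst hb]
  refine finsum_eq_zero_of_forall_eq_zero fun d => ?_
  rcases lt_or_ge d.degree N with h | h
  · rw [hf d h, zero_smul]
  · rw [prod_mem_lowI hb1 d e (he.trans_le h), smul_zero]

/-- A product of series congruent mod degree 2 changes only in higher degree. -/
theorem pow_sub_pow_mem {f g : MvPowerSeries σ R} (hf : f ∈ lowI σ R 1) (hg : g ∈ lowI σ R 1)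
    (h : f - g ∈ lowI σ R 2) (k : ℕ) : f ^ k - g ^ k ∈ lowI σ R (k + 1) := by
  induction k with
  | zero => simp
  | succ k ih =>
    have e : f ^ (k + 1) - g ^ (k + 1) = (f ^ k - g ^ k) * f + g ^ k * (f - g) := by ring
    rw [e]
    refine add_mem (lowI_mul ih hf) ?_
    have := lowI_mul (lowI_pow hg k) h
    rwa [Nat.mul_one] at this

/-- The exponent (a, b) in two variables. -/
def e2 (a b : ℕ) : Fin 2 →₀ ℕ := Finsupp.single 0 a + Finsupp.single 1 b

theorem e2_apply_zero (a b : ℕ) : e2 a b 0 = a := by simp [e2]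

theorem e2_apply_one (a b : ℕ) : e2 a b 1 = b := by simp [e2]

theorem degree_e2 (a b : ℕ) : (e2 a b).degree = a + b := by
  simp [e2, Finsupp.degree_single]

theorem e2_eta (d : Fin 2 →₀ ℕ) : d = e2 (d 0) (d 1) := by
  ext i; fin_cases i <;> simp [e2]

theorem degree_fin_two (d : Fin 2 →₀ ℕ) : d.degree = d 0 + d 1 := by
  conv_lhs => rw [e2_eta d]
  rw [degree_e2]

theorem coeff_X_add_X_pow (m a b : ℕ) (h : a + b = m) :
    coeff (e2 a b) ((X 0 + X 1 : MvPowerSeries (Fin 2) R) ^ m) = (Nat.choose m a : R) := by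
  classical
  rw [add_pow, map_sum]
  rw [Finset.sum_eq_single a]
  · rw [← nsmul_eq_mul', map_nsmul, X_pow_eq, X_pow_eq, monomial_mul_monomial,
      show m - a = b by omega, coeff_monomial, if_pos, one_mul, nsmul_one]
    rfl
  · intro c hc hne
    rw [← nsmul_eq_mul', map_nsmul, X_pow_eq, X_pow_eq, monomial_mul_monomial, coeff_monomial,
      if_neg, smul_zero]
    intro he
    have := DFunLike.congr_fun he 0
    simp [e2] at this
    exact hne this.symm
  · intro h'
    exact absurd (Finset.mem_range.mpr (by omega)) h'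

/-- The coefficient of a monomial of degree m in the m-th power of a series X + Y + ... -/
theorem coeff_pow_of_linear {f : MvPowerSeries (Fin 2) R} (hf : f ∈ lowI _ R 1)
    (h : f - (X 0 + X 1) ∈ lowI _ R 2) (m a b : ℕ) (hab : a + b = m) :
    coeff (e2 a b) (f ^ m) = (Nat.choose m a : R) := by
  have hX : (X 0 + X 1 : MvPowerSeries (Fin 2) R) ∈ lowI _ R 1 :=
    add_mem (X_mem_lowI_one 0) (X_mem_lowI_one 1)
  have := pow_sub_pow_mem hf hX h m (e2 a b) (by rw [degree_e2]; omega)
  rwa [map_sub, sub_eq_zero, coeff_X_add_X_pow m a b hab] at this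

end

end Vale.Agent.P217.Deform
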