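import Vale.Agent.P217.Deform.Series

/-!
Formal group laws and infinitesimal elements: with `I * a = 0`, a series with coefficients in
`I` is a central translation, and the failure of a series to be a homomorphism modulo `I`
is a symmetric 2-cocycle.
-/

namespace Vale.Agent.P217.Deform

noncomputable section

open MvPowerSeries

variable {σ τ υ : Type*} {R S : Type*} [CommRing R] [CommRing S]

/-- Evaluation of a series in one variable. -/
def ev (ψ : PowerSeries R) (f : MvPowerSeries τ R) : MvPowerSeries τ R :=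
  MvPowerSeries.subst (fun _ : Unit => f) ψ

/-- The sum for a formal group law. -/
def pl (G : FormalGroup R) (f g : MvPowerSeries τ R) : MvPowerSeries τ R :=
  subst ![f, g] G.toPowerSeries

theorem hs2 {f g : MvPowerSeries τ R} (hf : PowerSeries.HasSubst f)
    (hg : PowerSeries.HasSubst g) : HasSubst ![f, g] :=
  hasSubst_of_constantCoeff_nilpotent fun s => by fin_cases s <;> assumption

theorem hs1 {f : MvPowerSeries τ R} (hf : PowerSeries.HasSubst f) :
    HasSubst (fun _ : Unit => f) :=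
  hasSubst_of_constantCoeff_nilpotent fun _ => hf

theorem hsX (s : τ) : PowerSeries.HasSubst (X s : MvPowerSeries τ R) :=
  PowerSeries.HasSubst.X s

theorem hsubst_zero : PowerSeries.HasSubst (0 : MvPowerSeries τ R) := PowerSeries.HasSubst.zero

theorem hsubst_subst {b : σ → MvPowerSeries τ R} (hb : HasSubst b) {f : MvPowerSeries σ R}
    (hf : PowerSeries.HasSubst f) : PowerSeries.HasSubst (subst b f) :=
  IsNilpotent_subst hb hf

theorem hsubst_pl (G : FormalGroup R) {f g : MvPowerSeries τ R} (hf : PowerSeries.HasSubst f)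
    (hg : PowerSeries.HasSubst g) : PowerSeries.HasSubst (pl G f g) :=
  IsNilpotent_subst (hs2 hf hg) (by rw [G.zero_constantCoeff]; exact IsNilpotent.zero)

theorem hsubst_ev {ψ : PowerSeries R} (hψ : PowerSeries.constantCoeff ψ = 0)
    {f : MvPowerSeries τ R} (hf : PowerSeries.HasSubst f) : PowerSeries.HasSubst (ev ψ f) :=
  IsNilpotent_subst (hs1 hf) (by
    change IsNilpotent (PowerSeries.constantCoeff ψ)
    rw [hψ]; exact IsNilpotent.zero)

theorem subst_pl {b : τ → MvPowerSeries υ R} (hb : HasSubst b) (G : FormalGroup R)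
    {f g : MvPowerSeries τ R} (hf : PowerSeries.HasSubst f) (hg : PowerSeries.HasSubst g) :
    subst b (pl G f g) = pl G (subst b f) (subst b g) := by
  rw [pl, pl, subst_comp_subst_apply (hs2 hf hg) hb]
  congr 1
  funext s
  fin_cases s <;> rfl

theorem subst_ev {b : τ → MvPowerSeries υ R} (hb : HasSubst b) (ψ : PowerSeries R)
    {f : MvPowerSeries τ R} (hf : PowerSeries.HasSubst f) :
    subst b (ev ψ f) = ev ψ (subst b f) := by
  rw [ev, ev, subst_comp_subst_apply (hs1 hf) hb]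

theorem subst_X0 {f g : MvPowerSeries τ R} (hf : PowerSeries.HasSubst f)
    (hg : PowerSeries.HasSubst g) : subst ![f, g] (X 0 : MvPowerSeries (Fin 2) R) = f := by
  rw [subst_X (hs2 hf hg)]; rfl

theorem subst_X1 {f g : MvPowerSeries τ R} (hf : PowerSeries.HasSubst f)
    (hg : PowerSeries.HasSubst g) : subst ![f, g] (X 1 : MvPowerSeries (Fin 2) R) = g := by
  rw [subst_X (hs2 hf hg)]; rfl

theorem pl_X (G : FormalGroup R) :
    pl G (X 0) (X 1 : MvPowerSeries (Fin 2) R) = G.toPowerSeries := by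
  have : (![X 0, X 1] : Fin 2 → MvPowerSeries (Fin 2) R) = X := by
    funext s; fin_cases s <;> rfl
  rw [pl, this, subst_self]
  rfl

theorem pl_assoc (G : FormalGroup R) {f g h : MvPowerSeries τ R} (hf : PowerSeries.HasSubst f)
    (hg : PowerSeries.HasSubst g) (hh : PowerSeries.HasSubst h) :
    pl G (pl G f g) h = pl G f (pl G g h) :=
  G.assoc' hf hg hh

theorem pl_comm (G : FormalGroup R) [G.IsComm] {f g : MvPowerSeries τ R}
    (hf : PowerSeries.HasSubst f) (hg : PowerSeries.HasSubst g) : pl G f g = pl G g f :=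
  G.comm' hf hg

theorem pl_right_comm (G : FormalGroup R) [G.IsComm] {f g h : MvPowerSeries τ R}
    (hf : PowerSeries.HasSubst f) (hg : PowerSeries.HasSubst g) (hh : PowerSeries.HasSubst h) :
    pl G (pl G f g) h = pl G (pl G f h) g := by
  rw [pl_assoc G hf hg hh, pl_comm G hg hh, ← pl_assoc G hf hh hg]

theorem pl_zero (G : FormalGroup R) {f : MvPowerSeries τ R} (hf : PowerSeries.HasSubst f) :
    pl G f 0 = f :=
  G.add_zero hf

theorem zero_pl (G : FormalGroup R) {f : MvPowerSeries τ R} (hf : PowerSeries.HasSubst f) :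
    pl G 0 f = f :=
  G.zero_add hf

theorem ev_zero {ψ : PowerSeries R} (hψ : PowerSeries.constantCoeff ψ = 0) :
    ev ψ (0 : MvPowerSeries τ R) = 0 :=
  subst_zero_of_constantCoeff_zero (show MvPowerSeries.constantCoeff ψ = 0 from hψ)

theorem map_pl (φ : R →+* S) (G : FormalGroup R) {f g : MvPowerSeries τ R}
    (hf : PowerSeries.HasSubst f) (hg : PowerSeries.HasSubst g) :
    MvPowerSeries.map φ (pl G f g) =
      pl (G.map φ) (MvPowerSeries.map φ f) (MvPowerSeries.map φ g) := by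
  rw [pl, pl, map_subst (hs2 hf hg)]
  simp only [FormalGroup.map_toPowerSeries]
  congr 1
  funext s
  fin_cases s <;> rfl

theorem map_ev (φ : R →+* S) (ψ : PowerSeries R) {f : MvPowerSeries τ R}
    (hf : PowerSeries.HasSubst f) :
    MvPowerSeries.map φ (ev ψ f) = ev (PowerSeries.map φ ψ) (MvPowerSeries.map φ f) := by
  rw [ev, ev, map_subst (hs1 hf)]
  rfl

/-! Exponents in two variables, coefficient extraction. -/

theorem coeff_subst_X0_zero (G : MvPowerSeries (Fin 2) R) (d : Fin 2 →₀ ℕ) (hd : d 1 = 0) :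
    coeff d (subst ![X 0, (0 : MvPowerSeries (Fin 2) R)] G) = coeff d G := by
  classical
  rw [coeff_subst (hs2 (hsX 0) hsubst_zero), finsum_eq_single _ d]
  · rw [Finsupp.prod_fintype _ _ (fun _ => pow_zero _), Fin.prod_univ_two]
    simp only [Matrix.cons_val_zero, Matrix.cons_val_one, hd, pow_zero, mul_one]
    rw [X_pow_eq, coeff_monomial, if_pos, smul_eq_mul, mul_one]
    ext s; fin_cases s <;> simp [hd]
  · intro e he
    rw [Finsupp.prod_fintype _ _ (fun _ => pow_zero _), Fin.prod_univ_two]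
    simp only [Matrix.cons_val_zero, Matrix.cons_val_one]
    by_cases he1 : e 1 = 0
    · rw [he1, pow_zero, mul_one, X_pow_eq, coeff_monomial, if_neg, smul_zero]
      intro h
      apply he
      ext s; fin_cases s
      · simp [h]
      · simp [he1, hd]
    · rw [zero_pow he1, mul_zero, map_zero, smul_zero]

theorem coeff_group_of_snd (G : FormalGroup R) (d : Fin 2 →₀ ℕ) (hd : d 1 = 0) :
    coeff d G.toPowerSeries = coeff d (X 0 : MvPowerSeries (Fin 2) R) := by
  rw [← coeff_subst_X0_zero G.toPowerSeries d hd]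
  congr 1
  exact G.add_zero (hsX 0)

/-- The series H with G = X + Y H. -/
def tailH (G : FormalGroup R) : MvPowerSeries (Fin 2) R :=
  fun d => coeff (d + Finsupp.single 1 1) G.toPowerSeries

theorem coeff_tailH (G : FormalGroup R) (d : Fin 2 →₀ ℕ) :
    coeff d (tailH G) = coeff (d + Finsupp.single 1 1) G.toPowerSeries := rfl

theorem group_eq (G : FormalGroup R) : G.toPowerSeries = X 0 + X 1 * tailH G := by
  classical
  ext d
  rw [map_add, X, X, coeff_monomial_mul]
  by_cases hd : d 1 = 0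
  · rw [if_neg, add_zero, coeff_group_of_snd G d hd, X]
    intro h
    have := h 1
    simp [hd] at this
  · rw [coeff_monomial, if_neg, zero_add, if_pos, one_mul, coeff_tailH,
      tsub_add_cancel_of_le]
    · exact Finsupp.single_le_iff.mpr (Nat.one_le_iff_ne_zero.mpr hd)
    · exact Finsupp.single_le_iff.mpr (Nat.one_le_iff_ne_zero.mpr hd)
    · intro h
      apply hd
      rw [h]
      simp

/-- The derivative of G in the second variable at (c, 0). -/
def Pd (G : FormalGroup R) (c : MvPowerSeries τ R) : MvPowerSeries τ R :=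
  subst ![c, 0] (tailH G)

theorem constantCoeff_tailH (G : FormalGroup R) : constantCoeff (tailH G) = 1 := by
  rw [← coeff_zero_eq_constantCoeff_apply, coeff_tailH, zero_add, G.lin_coeff_Y]

theorem isUnit_Pd (G : FormalGroup R) {c : MvPowerSeries τ R} (hc : PowerSeries.HasSubst c) :
    IsUnit (Pd G c) := by
  rw [MvPowerSeries.isUnit_iff_constantCoeff]
  have h : IsNilpotent (constantCoeff (subst ![c, 0] (tailH G - C 1))) :=
    IsNilpotent_subst (hs2 hc hsubst_zero) (by
      rw [map_sub, constantCoeff_C, constantCoeff_tailH, sub_self]; exact IsNilpotent.zero)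
  rw [subst_sub (hs2 hc hsubst_zero), subst_C, map_sub, constantCoeff_C] at h
  have := h.isUnit_add_one
  rwa [sub_add_cancel] at this

section small

variable {a I : Ideal R}

theorem hsubst_small (hIa : I * a = ⊥) (hI : I ≤ a) {t : MvPowerSeries τ R} (ht : t ∈ cI τ I) :
    PowerSeries.HasSubst t := by
  refine ⟨2, ?_⟩
  have hc : constantCoeff t ∈ I := by
    rw [← coeff_zero_eq_constantCoeff_apply]; exact mem_cI.mp ht 0
  have := Ideal.mul_mem_mul hc (hI hc)
  rw [hIa, Ideal.mem_bot] at this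
  rw [sq, this]

theorem pl_small (hIa : I * a = ⊥) (hI : I ≤ a) (G : FormalGroup R) {c t : MvPowerSeries τ R}
    (hc : PowerSeries.HasSubst c) (ht : t ∈ cI τ I) : pl G c t = c + t * Pd G c := by
  have ht' := hsubst_small hIa hI ht
  have hb := hs2 hc ht'
  rw [pl, group_eq G, subst_add hb, subst_mul hb, subst_X0 hc ht', subst_X1 hc ht']
  congr 1
  refine mul_eq_mul_of_sub_mem hIa ht (subst_sub_subst_mem hb (hs2 hc hsubst_zero) ?_ _)
  intro s
  fin_cases s
  · simp
  · simpa using cI_mono hI ht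

theorem pl_small_small (hIa : I * a = ⊥) (hI : I ≤ a) (G : FormalGroup R)
    {t u : MvPowerSeries τ R} (ht : t ∈ cI τ I) (hu : u ∈ cI τ I) : pl G t u = t + u := by
  have ht' := hsubst_small hIa hI ht
  rw [pl_small hIa hI G ht' hu]
  congr 1
  have h0 : HasSubst ![(0 : MvPowerSeries τ R), 0] := hs2 hsubst_zero hsubst_zero
  have he : subst ![(0 : MvPowerSeries τ R), 0] (tailH G) = 1 := by
    have : ![(0 : MvPowerSeries τ R), 0] = fun _ => 0 := by
      funext s; fin_cases s <;> rfl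
    rw [this, ← Pi.zero_def, subst_zero_eq_C_constantCoeff, constantCoeff_tailH]
    simp
  conv_rhs => rw [← mul_one u, ← he]
  refine mul_eq_mul_of_sub_mem hIa hu (subst_sub_subst_mem (hs2 ht' hsubst_zero) h0 ?_ _)
  intro s
  fin_cases s
  · simpa using cI_mono hI ht
  · simp

theorem pl_small_cancel (hIa : I * a = ⊥) (hI : I ≤ a) (G : FormalGroup R)
    {c t u : MvPowerSeries τ R} (hc : PowerSeries.HasSubst c) (ht : t ∈ cI τ I)
    (hu : u ∈ cI τ I) (h : pl G c t = pl G c u) : t = u := by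
  rw [pl_small hIa hI G hc ht, pl_small hIa hI G hc hu] at h
  exact (isUnit_Pd G hc).mul_left_inj.mp (add_left_cancel h)

theorem exists_small (hIa : I * a = ⊥) (hI : I ≤ a) (G : FormalGroup R)
    {c d : MvPowerSeries τ R} (hc : PowerSeries.HasSubst c) (hd : d - c ∈ cI τ I) :
    ∃ t ∈ cI τ I, pl G c t = d := by
  obtain ⟨u, hu⟩ := isUnit_Pd G hc
  refine ⟨(d - c) * ↑u⁻¹, Ideal.mul_mem_right _ _ hd, ?_⟩
  rw [pl_small hIa hI G hc (Ideal.mul_mem_right _ _ hd), ← hu, mul_assoc, Units.inv_mul,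
    mul_one, add_sub_cancel]

theorem ev_small (hIa : I * a = ⊥) (hI : I ≤ a) {ψ : PowerSeries R}
    (hψ : PowerSeries.constantCoeff ψ = 0) {t : MvPowerSeries τ R} (ht : t ∈ cI τ I) :
    ev ψ t = C (PowerSeries.coeff 1 ψ) * t := by
  ext e
  change coeff e (PowerSeries.subst t ψ) = _
  rw [PowerSeries.coeff_subst (hsubst_small hIa hI ht), finsum_eq_single _ 1, pow_one,
    coeff_C_mul, smul_eq_mul]
  intro k hk
  rcases k with _ | k
  · rw [PowerSeries.coeff_zero_eq_constantCoeff_apply, hψ, zero_smul]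
  rcases k with _ | k
  · omega
  · have h2 : t * t = 0 := mul_eq_zero_of_mem hIa ht (cI_mono hI ht)
    rw [pow_succ, pow_succ, mul_assoc, h2, mul_zero, map_zero, smul_zero]

end small

/-! The error of a homomorphism modulo I. -/

/-- `Δ` measures the failure of `ψ` to be a homomorphism from `Φ` to `G`. -/
def IsErr (Φ G : FormalGroup R) (ψ : PowerSeries R) (Δ : MvPowerSeries (Fin 2) R) : Prop :=
  ev ψ Φ.toPowerSeries = pl G (pl G (ev ψ (X 0)) (ev ψ (X 1))) Δ

section err

variable {a I : Ideal R} {Φ G : FormalGroup R} {ψ : PowerSeries R}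
  {Δ : MvPowerSeries (Fin 2) R}

theorem err_apply (hIa : I * a = ⊥) (hI : I ≤ a) (hψ : PowerSeries.constantCoeff ψ = 0)
    (hΔ : Δ ∈ cI _ I) (h : IsErr Φ G ψ Δ) {f g : MvPowerSeries τ R}
    (hf : PowerSeries.HasSubst f) (hg : PowerSeries.HasSubst g) :
    ev ψ (pl Φ f g) = pl G (pl G (ev ψ f) (ev ψ g)) (subst ![f, g] Δ) := by
  have hb := hs2 hf hg
  have := congrArg (subst ![f, g]) h
  rw [← pl_X Φ, subst_ev hb _ (hsubst_pl _ (hsX 0) (hsX 1)), subst_pl hb _ (hsX 0) (hsX 1),
    subst_X0 hf hg, subst_X1 hf hg] at this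
  rw [this, subst_pl hb _ (hsubst_pl _ (hsubst_ev hψ (hsX 0)) (hsubst_ev hψ (hsX 1)))
      (hsubst_small hIa hI hΔ),
    subst_pl hb _ (hsubst_ev hψ (hsX 0)) (hsubst_ev hψ (hsX 1)), subst_ev hb _ (hsX 0),
    subst_ev hb _ (hsX 1), subst_X0 hf hg, subst_X1 hf hg]

theorem err_snd_zero (hIa : I * a = ⊥) (hI : I ≤ a) (hψ : PowerSeries.constantCoeff ψ = 0)
    (hΔ : Δ ∈ cI _ I) (h : IsErr Φ G ψ Δ) {f : MvPowerSeries τ R}
    (hf : PowerSeries.HasSubst f) : subst ![f, 0] Δ = 0 := by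
  have := err_apply hIa hI hψ hΔ h hf hsubst_zero
  rw [pl_zero Φ hf, ev_zero hψ, pl_zero G (hsubst_ev hψ hf)] at this
  refine pl_small_cancel hIa hI G (hsubst_ev hψ hf)
    (subst_mem_cI (hs2 hf hsubst_zero) hΔ) (Ideal.zero_mem _) ?_
  rw [pl_zero G (hsubst_ev hψ hf)]
  exact this.symm

theorem err_symm [Φ.IsComm] [G.IsComm] (hIa : I * a = ⊥) (hI : I ≤ a)
    (hψ : PowerSeries.constantCoeff ψ = 0) (hΔ : Δ ∈ cI _ I) (h : IsErr Φ G ψ Δ) :
    subst ![(X 1 : MvPowerSeries (Fin 2) R), X 0] Δ = Δ := by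
  have := err_apply hIa hI hψ hΔ h (hsX (R := R) (1 : Fin 2)) (hsX 0)
  rw [pl_comm Φ (hsX 1) (hsX 0), pl_X, pl_comm G (hsubst_ev hψ (hsX 1)) (hsubst_ev hψ (hsX 0)),
    h] at this
  exact (pl_small_cancel hIa hI G
    (hsubst_pl _ (hsubst_ev hψ (hsX 0)) (hsubst_ev hψ (hsX 1))) hΔ
    (subst_mem_cI (hs2 (hsX 1) (hsX 0)) hΔ) this).symm

theorem err_cocycle [G.IsComm] (hIa : I * a = ⊥) (hI : I ≤ a)
    (hψ : PowerSeries.constantCoeff ψ = 0) (hΔ : Δ ∈ cI _ I) (h : IsErr Φ G ψ Δ)
    {f g k : MvPowerSeries τ R} (hf : PowerSeries.HasSubst f) (hg : PowerSeries.HasSubst g)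
    (hk : PowerSeries.HasSubst k) :
    subst ![f, g] Δ + subst ![pl Φ f g, k] Δ = subst ![g, k] Δ + subst ![f, pl Φ g k] Δ := by
  have hfg := hsubst_pl Φ hf hg
  have hgk := hsubst_pl Φ hg hk
  have h1 := err_apply hIa hI hψ hΔ h hfg hk
  have h2 := err_apply hIa hI hψ hΔ h hf hgk
  rw [pl_assoc Φ hf hg hk] at h1
  rw [err_apply hIa hI hψ hΔ h hf hg] at h1
  rw [err_apply hIa hI hψ hΔ h hg hk] at h2
  have s1 := subst_mem_cI (hs2 hf hg) hΔ
  have s2 := subst_mem_cI (hs2 hfg hk) hΔ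
  have s3 := subst_mem_cI (hs2 hg hk) hΔ
  have s4 := subst_mem_cI (hs2 hf hgk) hΔ
  have n1 := hsubst_small hIa hI s1
  have n2 := hsubst_small hIa hI s2
  have n3 := hsubst_small hIa hI s3
  have n4 := hsubst_small hIa hI s4
  have pf := hsubst_ev hψ hf
  have pg := hsubst_ev hψ hg
  have pk := hsubst_ev hψ hk
  have pfg := hsubst_pl G pf pg
  have pgk := hsubst_pl G pg pk
  rw [pl_right_comm G pfg n1 pk, pl_assoc G (hsubst_pl G pfg pk) n1 n2,
    pl_small_small hIa hI G s1 s2] at h1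
  rw [← pl_assoc G pf pgk n3, ← pl_assoc G pf pg pk, pl_assoc G (hsubst_pl G pfg pk) n3 n4,
    pl_small_small hIa hI G s3 s4] at h2
  exact pl_small_cancel hIa hI G (hsubst_pl G pfg pk) (add_mem s1 s2) (add_mem s3 s4)
    (h1.symm.trans h2)

theorem err_change_source (hIa : I * a = ⊥) (hI : I ≤ a)
    (hψ : PowerSeries.constantCoeff ψ = 0) (hΔ : Δ ∈ cI _ I) (h : IsErr Φ G ψ Δ)
    {Φ' : FormalGroup R} {t : MvPowerSeries (Fin 2) R} (ht : t ∈ cI _ I)
    (hΦ' : Φ'.toPowerSeries = pl Φ Φ.toPowerSeries t) :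
    IsErr Φ' G ψ (Δ + C (PowerSeries.coeff 1 ψ) * t) := by
  have hΦ : PowerSeries.HasSubst Φ.toPowerSeries := by
    rw [← pl_X Φ]; exact hsubst_pl Φ (hsX 0) (hsX 1)
  have nt := hsubst_small hIa hI ht
  have hz : subst ![Φ.toPowerSeries, t] Δ = 0 := by
    rw [← err_snd_zero hIa hI hψ hΔ h hΦ]
    refine subst_congr_small hIa (hs2 hΦ nt) (hs2 hΦ hsubst_zero) ?_ hΔ
    intro s
    fin_cases s
    · simp
    · simpa using cI_mono hI ht
  have st : C (PowerSeries.coeff 1 ψ) * t ∈ cI _ I := Ideal.mul_mem_left _ _ ht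
  have pp := hsubst_pl G (hsubst_ev hψ (hsX (R := R) (0 : Fin 2))) (hsubst_ev hψ (hsX 1))
  unfold IsErr at *
  rw [hΦ', err_apply hIa hI hψ hΔ h hΦ nt, hz, h, ev_small hIa hI hψ ht,
    pl_zero G (hsubst_pl G (hsubst_pl G pp (hsubst_small hIa hI hΔ)) (hsubst_small hIa hI st)),
    pl_assoc G pp (hsubst_small hIa hI hΔ) (hsubst_small hIa hI st),
    pl_small_small hIa hI G hΔ st]

theorem constantCoeff_pl_unit (G : FormalGroup R) {f g : PowerSeries R}
    (hf : PowerSeries.constantCoeff f = 0) (hg : PowerSeries.constantCoeff g = 0) :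
    PowerSeries.constantCoeff (pl (τ := Unit) G f g : PowerSeries R) = 0 :=
  constantCoeff_subst_eq_zero (hs2 (PowerSeries.HasSubst.of_constantCoeff_zero' hf)
    (PowerSeries.HasSubst.of_constantCoeff_zero' hg))
    (by intro s; fin_cases s <;> assumption) G.zero_constantCoeff

theorem ev_pl (G : FormalGroup R) {f g : PowerSeries R}
    (hf : PowerSeries.constantCoeff f = 0) (hg : PowerSeries.constantCoeff g = 0)
    {w : MvPowerSeries τ R} (hw : PowerSeries.HasSubst w) :
    ev (pl (τ := Unit) G f g) w = pl G (ev f w) (ev g w) :=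
  subst_pl (hs1 hw) G (PowerSeries.HasSubst.of_constantCoeff_zero' hf)
    (PowerSeries.HasSubst.of_constantCoeff_zero' hg)

theorem err_change_map [G.IsComm] (hIa : I * a = ⊥) (hI : I ≤ a)
    (hψ : PowerSeries.constantCoeff ψ = 0) (hΔ : Δ ∈ cI _ I) (h : IsErr Φ G ψ Δ)
    {η : PowerSeries R} (hη0 : PowerSeries.constantCoeff η = 0) (hη : η ∈ cI Unit I) :
    IsErr Φ G (pl (τ := Unit) G ψ η)
      (Δ + (ev η Φ.toPowerSeries - ev η (X 0) - ev η (X 1))) := by
  have hΦ : PowerSeries.HasSubst Φ.toPowerSeries := by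
    rw [← pl_X Φ]; exact hsubst_pl Φ (hsX 0) (hsX 1)
  have s : ∀ {w : MvPowerSeries (Fin 2) R}, PowerSeries.HasSubst w → ev η w ∈ cI _ I :=
    fun hw => subst_mem_cI (hs1 hw) hη
  have n : ∀ {w : MvPowerSeries (Fin 2) R}, PowerSeries.HasSubst w →
      PowerSeries.HasSubst (ev η w) := fun hw => hsubst_small hIa hI (s hw)
  have s0 := s (hsX (R := R) (0 : Fin 2))
  have s1 := s (hsX (R := R) (1 : Fin 2))
  have sF := s hΦ
  have n0 := n (hsX (R := R) (0 : Fin 2))
  have n1 := n (hsX (R := R) (1 : Fin 2))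
  have p0 := hsubst_ev hψ (hsX (R := R) (0 : Fin 2))
  have p1 := hsubst_ev hψ (hsX (R := R) (1 : Fin 2))
  have pp := hsubst_pl G p0 p1
  have sd : Δ + (ev η Φ.toPowerSeries - ev η (X 0) - ev η (X 1)) ∈ cI _ I :=
    add_mem hΔ (sub_mem (sub_mem sF s0) s1)
  unfold IsErr at *
  rw [ev_pl G hψ hη0 hΦ, ev_pl G hψ hη0 (hsX 0), ev_pl G hψ hη0 (hsX 1), h,
    pl_assoc G pp (hsubst_small hIa hI hΔ) (n hΦ), pl_small_small hIa hI G hΔ sF,
    pl_assoc G p0 n0 (hsubst_pl G p1 n1), ← pl_assoc G n0 p1 n1, pl_comm G n0 p1,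
    pl_assoc G p1 n0 n1, ← pl_assoc G p0 p1 (hsubst_pl G n0 n1),
    pl_small_small hIa hI G s0 s1, pl_assoc G pp (hsubst_small hIa hI (add_mem s0 s1))
      (hsubst_small hIa hI sd), pl_small_small hIa hI G (add_mem s0 s1) sd]
  congr 1
  ring

end err

end

end Vale.Agent.P217.Deform
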