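import Vale.Agent.P217.Deform.Universal
import Vale.Agent.P217.Series

/-!
M2: a nice law is a universal deformation, every automorphism of the special fibre acts in
exactly one way, and automorphisms close to the identity act trivially modulo high powers of
the maximal ideal.
-/

namespace Vale.Agent.P217.Deform

noncomputable section

open MvPowerSeries

variable {p n : ℕ} [Fact p.Prime]

theorem isHom_iff {R : Type*} [CommRing R] {G G' : FormalGroup R} {ψ : PowerSeries R} :
    IsHom G G' ψ ↔ PowerSeries.constantCoeff ψ = 0 ∧ HomEq G G' ψ :=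
  Iff.rfl

section universal

variable {A : Type*} [CommRing A] [Algebra (W p n) A] {a : Ideal A} {F : FormalGroup (E p n)}
  {G : FormalGroup A} (r : K p n →+* A ⧸ a)

theorem mk_comp_eq (hr : r.comp WittVector.constantCoeff =
    (Ideal.Quotient.mk a).comp (algebraMap (W p n) A)) (φ : E p n →ₐ[W p n] A)
    (hφ : ∀ i, φ (u p n i) ∈ a) :
    (Ideal.Quotient.mk a).comp (φ : E p n →+* A) = r.comp (res p n) := by
  refine RingHom.ext fun f => ?_
  have h := Ideal.Quotient.eq.mpr (algHom_sub_algebraMap φ hφ f)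
  have h2 := DFunLike.congr_fun hr (MvPowerSeries.constantCoeff f)
  exact h.trans h2.symm

theorem universal_map (hF : IsNice p n F) (hn : 1 ≤ n) [IsAdicComplete a A]
    (hr : r.comp WittVector.constantCoeff = (Ideal.Quotient.mk a).comp (algebraMap (W p n) A))
    (hG : G.IsComm) {m : PowerSeries (A ⧸ a)}
    (hm : IsIso ((F.map (res p n)).map r) (G.map (Ideal.Quotient.mk a)) m) :
    ∃! φ : E p n →ₐ[W p n] A, (∀ i, φ (u p n i) ∈ a) ∧
      ∃ ψ : PowerSeries A, IsIso (F.map (φ : E p n →+* A)) G ψ ∧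
        PowerSeries.map (Ideal.Quotient.mk a) ψ = m := by
  have ha : ∀ c : W p n, WittVector.constantCoeff c = 0 → algebraMap (W p n) A c ∈ a := by
    intro c hc
    have h := DFunLike.congr_fun hr c
    simp only [RingHom.comp_apply, hc, map_zero] at h
    exact Ideal.Quotient.eq_zero_iff_mem.mp h.symm
  obtain ⟨⟨hm0, hmeq⟩, hm1⟩ := hm
  -- a solution for every exponent
  have base : ∃ φ ψ, Sol F a G m 1 φ ψ := by
    choose l hl using fun k => Ideal.Quotient.mk_surjective (PowerSeries.coeff k m)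
    let φ0 : E p n →ₐ[W p n] A := evalHom (x := fun _ => 0) (fun _ => a.zero_mem)
    let ψ0 : PowerSeries A := PowerSeries.mk fun k => if k = 0 then 0 else l k
    have hφ0 : ∀ i, φ0 (u p n i) ∈ a := fun i => by
      rw [evalHom_u]; exact a.zero_mem
    have hψ0 : PowerSeries.constantCoeff ψ0 = 0 := by
      rw [← PowerSeries.coeff_zero_eq_constantCoeff_apply, PowerSeries.coeff_mk, if_pos rfl]
    have hψm : PowerSeries.map (Ideal.Quotient.mk a) ψ0 = m := by
      refine PowerSeries.ext fun k => ?_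
      rw [PowerSeries.coeff_map, PowerSeries.coeff_mk]
      split_ifs with hk
      · rw [hk, map_zero, PowerSeries.coeff_zero_eq_constantCoeff_apply, hm0]
      · exact hl k
    refine ⟨φ0, ψ0, hφ0, hψ0, hψm, ?_⟩
    have he : a ≤ a ^ 1 := by rw [pow_one]
    let τ : A ⧸ a →+* A ⧸ a ^ 1 := Ideal.Quotient.factor he
    have hτ : τ.comp (Ideal.Quotient.mk a) = Ideal.Quotient.mk (a ^ 1) :=
      RingHom.ext fun x => rfl
    have h := (show HomEq ((F.map (res p n)).map r) (G.map (Ideal.Quotient.mk a)) m from hmeq).map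
      hm0 τ
    rw [← hψm, map_map' F (res p n) r, ← mk_comp_eq r hr φ0 hφ0, powerSeries_map_map, map_map', map_map',
      ← RingHom.comp_assoc, hτ] at h
    exact h
  have all : ∀ j, ∃ φ ψ, Sol F a G m (j + 1) φ ψ := by
    intro j
    induction j with
    | zero => exact base
    | succ j ih =>
      obtain ⟨φ, ψ, h⟩ := ih
      exact sol_improve hF hn ha hG hm1 (by omega) h
  choose φs ψs hsol using all
  have coh : ∀ {i j : ℕ}, i ≤ j →
      (∀ t, φs j (u p n t) - φs i (u p n t) ∈ a ^ (i + 1)) ∧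
      ∀ k, PowerSeries.coeff k (ψs j) - PowerSeries.coeff k (ψs i) ∈ a ^ (i + 1) :=
    fun {i j} hij => sol_unique hF hn ha hG hm1 (by omega) (hsol i) ((hsol j).anti (by omega))
  -- limits
  have lim : ∀ s : ℕ → A, (∀ {i j : ℕ}, i ≤ j → s j - s i ∈ a ^ (i + 1)) →
      ∃ L, ∀ i, L - s i ∈ a ^ (i + 1) := by
    intro s hs
    obtain ⟨L, hL⟩ := IsPrecomplete.prec (inferInstance : IsPrecomplete a A) (f := s) (by
      intro i j hij
      rw [SModEq.sub_mem, smul_eq_mul, Ideal.mul_top, ← neg_sub]
      exact neg_mem (Ideal.pow_le_pow_right (by omega) (hs hij)))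
    refine ⟨L, fun i => ?_⟩
    have h1 := hL (i + 1)
    rw [SModEq.sub_mem, smul_eq_mul, Ideal.mul_top] at h1
    have h2 := sub_mem (hs (show i ≤ i + 1 by omega)) h1
    rwa [sub_sub_sub_cancel_left] at h2
  choose x hx using fun t => lim (fun j => φs j (u p n t)) (fun hij => (coh hij).1 t)
  choose y hy using fun k => lim (fun j => PowerSeries.coeff k (ψs j)) (fun hij => (coh hij).2 k)
  have hxa : ∀ t, x t ∈ a := fun t => by
    have := a.add_mem (by simpa using hx t 0) ((hsol 0).1 t)
    rwa [sub_add_cancel] at this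
  let φ : E p n →ₐ[W p n] A := evalHom hxa
  let ψ : PowerSeries A := PowerSeries.mk y
  have hφ : ∀ t, φ (u p n t) ∈ a := fun t => by rw [evalHom_u]; exact hxa t
  have hψ0 : PowerSeries.constantCoeff ψ = 0 := by
    refine eq_of_sub_mem_pow (a := a) fun N => Ideal.pow_le_pow_right (Nat.le_succ N) ?_
    have := hy 0 N
    rw [PowerSeries.coeff_zero_eq_constantCoeff_apply, (hsol N).2.1] at this
    rw [← PowerSeries.coeff_zero_eq_constantCoeff_apply, PowerSeries.coeff_mk]
    exact this
  have hψmap : ∀ j, PowerSeries.map (Ideal.Quotient.mk (a ^ (j + 1))) ψ =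
      PowerSeries.map (Ideal.Quotient.mk (a ^ (j + 1))) (ψs j) := fun j => by
    refine PowerSeries.ext fun k => ?_
    rw [PowerSeries.coeff_map, PowerSeries.coeff_map, Ideal.Quotient.eq, PowerSeries.coeff_mk]
    exact hy k j
  have hψm : PowerSeries.map (Ideal.Quotient.mk a) ψ = m := by
    rw [← (hsol 0).2.2.1]
    refine PowerSeries.ext fun k => ?_
    rw [PowerSeries.coeff_map, PowerSeries.coeff_map, Ideal.Quotient.eq, PowerSeries.coeff_mk]
    simpa using hy k 0
  have hlevel : ∀ j, HomEq (F.map ((Ideal.Quotient.mk (a ^ (j + 1))).comp (φ : E p n →+* A)))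
      (G.map (Ideal.Quotient.mk (a ^ (j + 1))))
      (PowerSeries.map (Ideal.Quotient.mk (a ^ (j + 1))) ψ) := fun j => by
    rw [map_eq_of_congr le_rfl hφ (hsol j).1 (fun t => by rw [evalHom_u]; exact hx t j), hψmap]
    exact (hsol j).2.2.2
  have hhom : HomEq (F.map (φ : E p n →+* A)) G ψ := by
    have p0 := hsubst_ev hψ0 (hsX (R := A) (0 : Fin 2))
    have p1 := hsubst_ev hψ0 (hsX (R := A) (1 : Fin 2))
    refine MvPowerSeries.ext fun d => eq_of_sub_mem_pow (a := a) fun N => ?_
    refine Ideal.pow_le_pow_right (Nat.le_succ N) ?_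
    rw [← Ideal.Quotient.eq, ← coeff_map, ← coeff_map, map_ev _ ψ (hsubst_group _),
      map_pl _ G p0 p1, map_ev _ ψ (hsX 0), map_ev _ ψ (hsX 1), MvPowerSeries.map_X,
      MvPowerSeries.map_X]
    rw [← FormalGroup.map_toPowerSeries, map_map']
    exact congrArg (coeff d) (hlevel N)
  refine ⟨φ, ⟨hφ, ψ, ⟨⟨hψ0, hhom⟩, ?_⟩, hψm⟩, ?_⟩
  · refine isUnit_of_isUnit_mk (a := a) ?_
    rw [← PowerSeries.coeff_map, hψm]
    exact hm1
  · rintro φ' ⟨hφ', ψ', ⟨⟨hψ0', hhom'⟩, -⟩, hψm'⟩
    refine algHom_ext φ' φ hφ' fun t => eq_of_sub_mem_pow (a := a) fun N => ?_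
    refine Ideal.pow_le_pow_right (Nat.le_succ N) ?_
    have h1 : Sol F a G m (N + 1) φ' ψ' := by
      refine ⟨hφ', hψ0', hψm', ?_⟩
      have := (show HomEq (F.map (φ' : E p n →+* A)) G ψ' from hhom').map hψ0'
        (Ideal.Quotient.mk (a ^ (N + 1)))
      rwa [map_map'] at this
    exact (sol_unique hF hn ha hG hm1 (by omega) ⟨hφ, hψ0, hψm, hlevel N⟩ h1).1 t

end universal

/-- M2: a nice law is universal. -/
theorem deformStatement : DeformStatement p n := by
  intro hn F hF A _ _ a _ r hr G hG m hm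
  exact universal_map r hF hn hr hG hm

variable (p n) in
/-- The identification of the residue field. -/
def resInv : K p n →+* E p n ⧸ mE p n :=
  (RingHom.quotientKerEquivOfSurjective (res_surjective (p := p) (n := n))).symm.toRingHom

theorem resInv_res (f : E p n) : resInv p n (res p n f) = Ideal.Quotient.mk (mE p n) f := by
  exact (RingEquiv.symm_apply_eq
    (RingHom.quotientKerEquivOfSurjective (res_surjective (p := p) (n := n)))).mpr
    (RingHom.quotientKerEquivOfSurjective_apply_mk res_surjective f).symm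

theorem resInv_injective : Function.Injective (resInv p n) := RingEquiv.injective _

theorem mk_mE_eq : Ideal.Quotient.mk (mE p n) = (resInv p n).comp (res p n) :=
  RingHom.ext fun f => (resInv_res f).symm

theorem map_mE_iff {g : PowerSeries (K p n)} {ψ : PowerSeries (E p n)} :
    PowerSeries.map (Ideal.Quotient.mk (mE p n)) ψ = PowerSeries.map (resInv p n) g ↔
      PowerSeries.map (res p n) ψ = g := by
  rw [mk_mE_eq, ← powerSeries_map_map]
  exact (PowerSeries.map_injective (resInv p n) resInv_injective).eq_iff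

theorem resInv_compat : (resInv p n).comp WittVector.constantCoeff =
    (Ideal.Quotient.mk (mE p n)).comp (algebraMap (W p n) (E p n)) := by
  refine RingHom.ext fun c => ?_
  rw [RingHom.comp_apply, RingHom.comp_apply, ← resInv_res, res_eq]
  congr 2

theorem isIso_resInv {F : FormalGroup (E p n)} {g : PowerSeries (K p n)} (hg : IsAut p n F g) :
    IsIso ((F.map (res p n)).map (resInv p n)) (F.map (Ideal.Quotient.mk (mE p n)))
      (PowerSeries.map (resInv p n) g) := by
  have h : IsIso (F.map (res p n)) (F.map (res p n)) g := hg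
  have h2 := h.map (resInv p n)
  rwa [show (F.map (res p n)).map (resInv p n) = F.map (Ideal.Quotient.mk (mE p n)) by
    rw [map_map', mk_mE_eq]] at h2 ⊢

/-- The inverse of an isomorphism. -/
theorem exists_inverse {R : Type*} [CommRing R] {G G' : FormalGroup R} {ψ : PowerSeries R}
    (h : IsIso G G' ψ) : ∃ θ : PowerSeries R, IsIso G' G θ ∧
      PowerSeries.subst θ ψ = PowerSeries.X ∧ PowerSeries.subst ψ θ = PowerSeries.X := by
  obtain ⟨hψ, hu⟩ := h
  have hr := PowerSeries.subst_substInvOfIsUnit_right ψ hψ.1 hu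
  have hl := PowerSeries.subst_substInvOfIsUnit_left ψ hψ.1 hu
  have h0 := PowerSeries.constantCoeff_substInvOfIsUnit ψ hu
  refine ⟨ψ.substInvOfIsUnit hu, ⟨⟨h0, ?_⟩, ?_⟩, hr, hl⟩
  · set θ := ψ.substInvOfIsUnit hu
    have hsθ : PowerSeries.HasSubst θ := PowerSeries.HasSubst.of_constantCoeff_zero' h0
    have hsψ : PowerSeries.HasSubst ψ := PowerSeries.HasSubst.of_constantCoeff_zero' hψ.1
    have back : ∀ {w : MvPowerSeries (Fin 2) R}, PowerSeries.HasSubst w →
        ev ψ (ev θ w) = w := fun {w} hw => by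
      have := (PowerSeries.subst_comp_subst_apply hsθ hw ψ).symm
      rw [hr, PowerSeries.subst_X hw] at this
      exact this
    have forth : ∀ {w : MvPowerSeries (Fin 2) R}, PowerSeries.HasSubst w →
        ev θ (ev ψ w) = w := fun {w} hw => by
      have := (PowerSeries.subst_comp_subst_apply hsψ hw θ).symm
      rw [hl, PowerSeries.subst_X hw] at this
      exact this
    have hc : ∀ i : Fin 2, MvPowerSeries.constantCoeff (ev θ (X i : MvPowerSeries (Fin 2) R)) = 0 :=
      fun i => PowerSeries.constantCoeff_subst_eq_zero (by simp) θ h0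
    have H : ev ψ (pl G (ev θ (X (0 : Fin 2))) (ev θ (X (1 : Fin 2)))) =
        pl G' (ev ψ (ev θ (X (0 : Fin 2)))) (ev ψ (ev θ (X (1 : Fin 2)))) := hψ.apply (hc 0) (hc 1)
    rw [back (hsX 0), back (hsX 1), pl_X] at H
    change ev θ G'.toPowerSeries = pl G (ev θ (X 0)) (ev θ (X 1))
    rw [← H]
    exact forth (hsubst_pl G (hsubst_ev h0 (hsX 0)) (hsubst_ev h0 (hsX 1)))
  · rw [PowerSeries.coeff_one_substInvOfIsUnit]
    exact Units.isUnit _

theorem eq_of_inverse {R : Type*} [CommRing R] {ψ θ θ' : PowerSeries R}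
    (h : PowerSeries.constantCoeff ψ = 0) (h1 : PowerSeries.constantCoeff θ' = 0)
    (hl : PowerSeries.subst ψ θ = PowerSeries.X) (hr : PowerSeries.subst θ' ψ = PowerSeries.X) :
    θ = θ' := by
  have hψ : PowerSeries.HasSubst ψ := PowerSeries.HasSubst.of_constantCoeff_zero' h
  have hθ' : PowerSeries.HasSubst θ' := PowerSeries.HasSubst.of_constantCoeff_zero' h1
  have := PowerSeries.subst_comp_subst_apply hψ hθ' θ
  rw [hl, hr, PowerSeries.X_subst, PowerSeries.subst_X hθ'] at this
  exact this.symm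

theorem map_subst_powerSeries {R S : Type*} [CommRing R] [CommRing S] (f : R →+* S)
    {ψ θ : PowerSeries R} (hθ : PowerSeries.constantCoeff θ = 0) :
    PowerSeries.map f (PowerSeries.subst θ ψ) =
      PowerSeries.subst (PowerSeries.map f θ) (PowerSeries.map f ψ) :=
  PowerSeries.map_subst (PowerSeries.HasSubst.of_constantCoeff_zero' hθ) ψ

theorem map_X' {R S : Type*} [CommRing R] [CommRing S] (f : R →+* S) :
    PowerSeries.map f PowerSeries.X = (PowerSeries.X : PowerSeries S) :=
  PowerSeries.map_X f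

/-- M2: every automorphism of the special fibre acts in exactly one way. -/
theorem actionStatement : ActionStatement p n := by
  intro hn F hF g hg
  have hcomm := hF.comm
  obtain ⟨g', hg', hgg', hg'g⟩ := exists_inverse hg
  obtain ⟨φ, ⟨hφ, θ, hθ, hθg⟩, huniq⟩ :=
    universal_map (resInv p n) hF hn resInv_compat hF.comm (isIso_resInv hg')
  refine ⟨φ, ⟨hg, hφ, ?_⟩, ?_⟩
  · obtain ⟨ψ, hψ, hθψ, hψθ⟩ := exists_inverse hθ
    refine ⟨ψ, hψ, ?_⟩
    rw [map_mE_iff] at hθg
    have h1 := congrArg (PowerSeries.map (res p n)) hψθ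
    rw [map_subst_powerSeries _ hθ.1.1, map_X', hθg] at h1
    exact eq_of_inverse hg'.1.1 hg.1.1 h1 hg'g
  · rintro φ' ⟨-, hφ', ψ, hψ, hψg⟩
    obtain ⟨θ', hθ', hψθ', hθ'ψ⟩ := exists_inverse hψ
    refine huniq φ' ⟨hφ', θ', hθ', ?_⟩
    rw [map_mE_iff]
    have h1 := congrArg (PowerSeries.map (res p n)) hθ'ψ
    rw [map_subst_powerSeries _ hψ.1.1, map_X', hψg] at h1
    exact eq_of_inverse hg.1.1 hg'.1.1 h1 hgg'

end

end Vale.Agent.P217.Deform
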