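import Vale.Agent.P217.Deform.EvalHom

/-!
One step of the deformation induction, over a ring R with ideals a and I, I * a = 0.
-/

namespace Vale.Agent.P217.Deform

noncomputable section

open MvPowerSeries

variable {p n : ℕ} [Fact p.Prime]

theorem isComm_map {R S : Type*} [CommRing R] [CommRing S] (F : FormalGroup R) [F.IsComm]
    (φ : R →+* S) : (F.map φ).IsComm := by
  constructor
  have h : pl F (X 0) (X 1) = pl F (X 1 : MvPowerSeries (Fin 2) R) (X 0) :=
    pl_comm F (hsX 0) (hsX 1)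
  rw [pl_X] at h
  conv_lhs => rw [FormalGroup.map_toPowerSeries, h, map_pl φ F (hsX 1) (hsX 0),
    MvPowerSeries.map_X, MvPowerSeries.map_X]
  rfl

/-- The homomorphism equation. -/
def HomEq {R : Type*} [CommRing R] (Φ G : FormalGroup R) (ψ : PowerSeries R) : Prop :=
  ev ψ Φ.toPowerSeries = pl G (ev ψ (X 0)) (ev ψ (X 1))

theorem HomEq.map {R S : Type*} [CommRing R] [CommRing S] {Φ G : FormalGroup R}
    {ψ : PowerSeries R} (hψ : PowerSeries.constantCoeff ψ = 0) (h : HomEq Φ G ψ) (φ : R →+* S) :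
    HomEq (Φ.map φ) (G.map φ) (PowerSeries.map φ ψ) := by
  have := congrArg (MvPowerSeries.map φ) h
  rw [map_ev φ ψ (hsubst_group Φ), map_pl φ G (hsubst_ev hψ (hsX 0)) (hsubst_ev hψ (hsX 1)),
    map_ev φ ψ (hsX 0), map_ev φ ψ (hsX 1), MvPowerSeries.map_X, MvPowerSeries.map_X] at this
  exact this

variable {R : Type*} [CommRing R] {a I : Ideal R}

theorem heads_of_hom {F : FormalGroup (E p n)} (hF : IsNice p n F) (hn : 1 ≤ n)
    (ρ : E p n →+* R) (hρ : ∀ f, res p n f = 0 → ρ f ∈ a) :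
    Heads p n a (F.map ρ) (fun i => MvPowerSeries.map ρ (bE p n F i)) where
  B_low i d hd := by rw [coeff_map]; exact hρ _ ((res_bE hF i).1 d hd)
  B_head i := by rw [coeff_map]; exact (isUnit_of_res_ne_zero (res_bE hF i).2).map ρ
  T_low e he d hd := by rw [← bnd_map, coeff_map]; exact hρ _ ((res_bnd hF hn he).1 d hd)
  T_head e he := by
    rw [← bnd_map, coeff_map]; exact (isUnit_of_res_ne_zero (res_bnd hF hn he).2).map ρ

theorem map_Pd {S : Type*} [CommRing S] (ρ : R →+* S) (F : FormalGroup R) :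
    MvPowerSeries.map ρ (Pd F F.toPowerSeries) = Pd (F.map ρ) (F.map ρ).toPowerSeries := by
  rw [Pd, Pd, map_subst (hs2 (hsubst_group F) hsubst_zero)]
  congr 1
  funext s
  fin_cases s <;> simp

/-- Two specialisations that differ to first order. -/
theorem map_eq_pl {F : FormalGroup (E p n)} (hIa : I * a = ⊥) (hI : I ≤ a)
    (ρ ρ' : E p n →+* R) (c : Fin (n - 1) → R) (hc : ∀ i, c i ∈ I)
    (h : ∀ f, ρ' f = ρ f + ∑ i, c i * ρ (MvPowerSeries.C (coeff (Finsupp.single i 1) f))) :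
    (F.map ρ').toPowerSeries = pl (F.map ρ) (F.map ρ).toPowerSeries
      (∑ i, MvPowerSeries.C (c i) * MvPowerSeries.map ρ (bE p n F i)) := by
  have ht : (∑ i, MvPowerSeries.C (c i) * MvPowerSeries.map ρ (bE p n F i)) ∈ cI (Fin 2) I :=
    Ideal.sum_mem _ fun i _ => Ideal.mul_mem_right _ _ (C_mem_cI (hc i))
  have hb : ∀ i, MvPowerSeries.map ρ (bE p n F i) * Pd (F.map ρ) (F.map ρ).toPowerSeries =
      MvPowerSeries.map ρ (du p n F i) := fun i => by
    rw [← map_Pd, ← map_mul, bE, mul_assoc, Ring.inverse_mul_cancel _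
      (isUnit_Pd F (hsubst_group F)), mul_one]
  rw [pl_small hIa hI _ (hsubst_group _) ht, Finset.sum_mul]
  simp only [mul_assoc, hb]
  ext d
  rw [FormalGroup.map_toPowerSeries, FormalGroup.map_toPowerSeries, map_add, coeff_map, coeff_map,
    map_sum]
  simp only [coeff_C_mul, coeff_map, coeff_du]
  exact h _

theorem constantCoeff_small_eq_zero (hIa : I * a = ⊥) (hI : I ≤ a) (G : FormalGroup R)
    {ψ η : PowerSeries R} (hψ : PowerSeries.constantCoeff ψ = 0) (hη : η ∈ cI Unit I)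
    (h : PowerSeries.constantCoeff (pl (τ := Unit) G ψ η : PowerSeries R) = 0) :
    PowerSeries.constantCoeff η = 0 := by
  have hs : PowerSeries.HasSubst ψ := PowerSeries.HasSubst.of_constantCoeff_zero' hψ
  rw [pl_small hIa hI G hs hη] at h
  change MvPowerSeries.constantCoeff (_ + _ : MvPowerSeries Unit R) = 0 at h
  rw [map_add, show MvPowerSeries.constantCoeff (ψ : MvPowerSeries Unit R) = 0 from hψ, zero_add,
    map_mul] at h
  exact (isUnit_iff_constantCoeff.mp (isUnit_Pd G hs)).mul_left_eq_zero.mp h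

variable {Φ G : FormalGroup R} [G.IsComm] {ψ : PowerSeries R} {Δ : MvPowerSeries (Fin 2) R}
  {B : Fin (n - 1) → MvPowerSeries (Fin 2) R}

theorem err_vary (hIa : I * a = ⊥) (hI : I ≤ a) (hψ : PowerSeries.constantCoeff ψ = 0)
    (hΔ : Δ ∈ cI _ I) (h : IsErr Φ G ψ Δ) (c : Fin (n - 1) → R) (hc : ∀ i, c i ∈ I)
    {η : PowerSeries R} (hη : η ∈ cI Unit I) (hη0 : PowerSeries.constantCoeff η = 0)
    {Φ' : FormalGroup R}
    (hΦ' : Φ'.toPowerSeries = pl Φ Φ.toPowerSeries (∑ i, MvPowerSeries.C (c i) * B i)) :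
    IsErr Φ' G (pl (τ := Unit) G ψ η)
      (Δ + vary Φ B (fun i => PowerSeries.coeff 1 ψ * c i) η) := by
  set t := ∑ i, MvPowerSeries.C (c i) * B i with ht'
  have ht : t ∈ cI (Fin 2) I :=
    Ideal.sum_mem _ fun i _ => Ideal.mul_mem_right _ _ (C_mem_cI (hc i))
  have hcob : ev η Φ.toPowerSeries - ev η (X 0) - ev η (X 1) ∈ cI (Fin 2) I :=
    sub_mem (sub_mem (subst_mem_cI (hs1 (hsubst_group Φ)) hη) (subst_mem_cI (hs1 (hsX 0)) hη))
      (subst_mem_cI (hs1 (hsX 1)) hη)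
  have h2 := err_change_source hIa hI (constantCoeff_pl_unit G hψ hη0) (add_mem hΔ hcob)
    (err_change_map hIa hI hψ hΔ h hη0 hη) ht hΦ'
  have e : Δ + vary Φ B (fun i => PowerSeries.coeff 1 ψ * c i) η =
      Δ + (ev η Φ.toPowerSeries - ev η (X 0) - ev η (X 1)) +
        MvPowerSeries.C (PowerSeries.coeff 1 (pl (τ := Unit) G ψ η)) * t := by
    have hd : (pl (τ := Unit) G ψ η : MvPowerSeries Unit R) - ψ ∈ cI Unit I := by
      rw [pl_small hIa hI G (PowerSeries.HasSubst.of_constantCoeff_zero' hψ) hη,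
        add_sub_cancel_left]
      exact Ideal.mul_mem_right _ _ hη
    have h1 : MvPowerSeries.C (PowerSeries.coeff 1 (pl (τ := Unit) G ψ η)) * t =
        MvPowerSeries.C (PowerSeries.coeff 1 ψ) * t := by
      rw [mul_comm, mul_comm (MvPowerSeries.C (PowerSeries.coeff 1 ψ))]
      refine mul_eq_mul_of_sub_mem hIa ht ?_
      rw [← map_sub, ← map_sub]
      exact C_mem_cI (hI (mem_cI.mp hd _))
    rw [h1, vary, cob, ht', Finset.mul_sum]
    simp only [map_mul, mul_assoc]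
    ring
  rw [e]
  exact h2

theorem coc_of_err {Φ' : FormalGroup R} [Φ'.IsComm] (hIa : I * a = ⊥) (hI : I ≤ a)
    (hψ : PowerSeries.constantCoeff ψ = 0) (hΔ : Δ ∈ cI _ I) (h : IsErr Φ' G ψ Δ)
    (hΦ : Φ'.toPowerSeries - Φ.toPowerSeries ∈ cI (Fin 2) a) : Coc Φ Δ where
  symm := err_symm hIa hI hψ hΔ h
  zero := err_snd_zero hIa hI hψ hΔ h (hsX 0)
  cocycle := by
    have e : ∀ u v : Fin 3, pl Φ' (X u) (X v : MvPowerSeries (Fin 3) R) -
        pl Φ (X u) (X v) ∈ cI (Fin 3) a := fun u v => by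
      rw [pl, pl, ← subst_sub (hs2 (hsX u) (hsX v))]
      exact subst_mem_cI (hs2 (hsX u) (hsX v)) hΦ
    have H := err_cocycle hIa hI hψ hΔ h (hsX (R := R) (0 : Fin 3)) (hsX 1) (hsX 2)
    rw [subst_congr_small hIa (hs2 (hsubst_pl Φ' (hsX 0) (hsX 1)) (hsX 2))
      (hs2 (hsubst_pl Φ (hsX 0) (hsX 1)) (hsX 2)) (fun s => ?_) hΔ,
      subst_congr_small hIa (hs2 (hsX 0) (hsubst_pl Φ' (hsX 1) (hsX 2)))
      (hs2 (hsX 0) (hsubst_pl Φ (hsX 1) (hsX 2))) (fun s => ?_) hΔ] at H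
    · exact H
    · fin_cases s
      · simp
      · simpa using e 1 2
    · fin_cases s
      · simpa using e 0 1
      · simp

end

end Vale.Agent.P217.Deform
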