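import Vale.Agent.P217.Deform.Choose
import Vale.Agent.P217.Deform.Small

/-!
The triangular lemma: symmetric cocycles with coefficients in I are absorbed, in exactly one
way, by the parameters and by a change of coordinate.
-/

namespace Vale.Agent.P217.Deform

noncomputable section

open MvPowerSeries

variable {p : ℕ} [Fact p.Prime] {n : ℕ} {R : Type*} [CommRing R]

theorem one_le_qd (D : ℕ) : 1 ≤ qd p D := by
  have hp := (Fact.out : p.Prime)
  unfold qd
  split_ifs <;> exact Nat.one_le_pow _ _ hp.pos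

theorem qd_lt {D : ℕ} (hD : 2 ≤ D) : qd p D < D := by
  have hp := (Fact.out : p.Prime)
  have hdvd : p ^ padicValNat p D ∣ D := pow_padicValNat_dvd
  unfold qd
  split_ifs with h
  · have hv : padicValNat p D ≠ 0 := fun hv => by rw [hv, pow_zero] at h; omega
    calc p ^ (padicValNat p D - 1) < p ^ padicValNat p D :=
          Nat.pow_lt_pow_right hp.one_lt (by omega)
      _ = D := h.symm
  · exact lt_of_le_of_ne (Nat.le_of_dvd (by omega) hdvd) (Ne.symm h)

variable (p) in
/-- The marked exponent in degree D. -/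
def idx (D : ℕ) : Fin 2 →₀ ℕ := e2 (qd p D) (D - qd p D)

theorem degree_idx {D : ℕ} (hD : 2 ≤ D) : (idx p D).degree = D := by
  have := qd_lt (p := p) hD
  rw [idx, degree_e2]; omega

/-! Coefficient extraction for substitutions. -/

theorem coeff_subst_swap (G : MvPowerSeries (Fin 2) R) (i j : ℕ) :
    coeff (e2 i j) (subst ![(X 1 : MvPowerSeries (Fin 2) R), X 0] G) = coeff (e2 j i) G := by
  classical
  rw [coeff_subst (hs2 (hsX 1) (hsX 0)), finsum_eq_single _ (e2 j i)]
  · rw [Finsupp.prod_fintype _ _ (fun _ => pow_zero _), Fin.prod_univ_two]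
    simp only [Matrix.cons_val_zero, Matrix.cons_val_one, e2_apply_zero, e2_apply_one]
    rw [X_pow_eq, X_pow_eq, monomial_mul_monomial, coeff_monomial, if_pos, smul_eq_mul, one_mul,
      mul_one]
    ext s; fin_cases s <;> simp [e2]
  · intro e he
    rw [Finsupp.prod_fintype _ _ (fun _ => pow_zero _), Fin.prod_univ_two]
    simp only [Matrix.cons_val_zero, Matrix.cons_val_one]
    rw [X_pow_eq, X_pow_eq, monomial_mul_monomial, coeff_monomial, if_neg, smul_zero]
    intro h
    apply he
    have h0 := DFunLike.congr_fun h 0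
    have h1 := DFunLike.congr_fun h 1
    simp [e2] at h0 h1
    rw [e2_eta e, ← h0, ← h1]

/-- The exponent (i, j, k) on three distinguished variables. -/
def e3 (u v w : Fin 3) (i j k : ℕ) : Fin 3 →₀ ℕ :=
  Finsupp.single u i + Finsupp.single v j + Finsupp.single w k

theorem coeff_sum_pow_mul {u v w : Fin 3} (huv : u ≠ v) (huw : u ≠ w) (hvw : v ≠ w)
    (i j k a b : ℕ) :
    coeff (e3 u v w i j k) ((X u + X v : MvPowerSeries (Fin 3) R) ^ a * X w ^ b) =
      if b = k ∧ a = i + j then (Nat.choose a i : R) else 0 := by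
  classical
  rw [add_pow, Finset.sum_mul, map_sum]
  have key : ∀ m : ℕ, coeff (e3 u v w i j k)
      (X u ^ m * X v ^ (a - m) * (Nat.choose a m : MvPowerSeries (Fin 3) R) * X w ^ b) =
        if m = i ∧ a - m = j ∧ b = k then (Nat.choose a m : R) else 0 := by
    intro m
    rw [show X u ^ m * X v ^ (a - m) * (Nat.choose a m : MvPowerSeries (Fin 3) R) * X w ^ b =
        Nat.choose a m • (X u ^ m * X v ^ (a - m) * X w ^ b) by rw [nsmul_eq_mul]; ring,
      map_nsmul, X_pow_eq, X_pow_eq, X_pow_eq, monomial_mul_monomial, monomial_mul_monomial,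
      coeff_monomial, one_mul, one_mul]
    by_cases h : m = i ∧ a - m = j ∧ b = k
    · rw [if_pos h, if_pos, nsmul_one]
      rw [h.2.1, h.2.2, h.1]
      rfl
    · rw [if_neg h, if_neg, smul_zero]
      intro he
      apply h
      have hu := DFunLike.congr_fun he u
      have hv := DFunLike.congr_fun he v
      have hw := DFunLike.congr_fun he w
      simp [e3, huv, huw, hvw, huv.symm, huw.symm, hvw.symm] at hu hv hw
      exact ⟨hu.symm, hv.symm, hw.symm⟩
  simp only [key]
  by_cases h : b = k ∧ a = i + j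
  · rw [if_pos h, Finset.sum_eq_single i]
    · rw [if_pos ⟨rfl, by omega, h.1⟩]
    · intro m _ hm
      rw [if_neg fun hh => hm hh.1]
    · intro hh
      exact absurd (Finset.mem_range.mpr (by omega)) hh
  · rw [if_neg h]
    refine Finset.sum_eq_zero fun m hm => ?_
    rw [if_neg]
    rintro ⟨h1, h2, h3⟩
    rw [Finset.mem_range] at hm
    exact h ⟨h3, by omega⟩

/-- The data of a symmetric normalised cocycle. -/
structure Coc (Φ : FormalGroup R) (Δ : MvPowerSeries (Fin 2) R) : Prop where
  symm : subst ![(X 1 : MvPowerSeries (Fin 2) R), X 0] Δ = Δ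
  zero : subst ![(X 0 : MvPowerSeries (Fin 2) R), 0] Δ = 0
  cocycle : subst ![(X 0 : MvPowerSeries (Fin 3) R), X 1] Δ + subst ![pl Φ (X 0) (X 1), X 2] Δ =
      subst ![(X 1 : MvPowerSeries (Fin 3) R), X 2] Δ + subst ![X 0, pl Φ (X 1) (X 2)] Δ

theorem pl_sub_linear (Φ : FormalGroup R) {τ : Type*} (u v : τ) :
    pl Φ (X u) (X v : MvPowerSeries τ R) ∈ lowI τ R 1 ∧
      pl Φ (X u) (X v : MvPowerSeries τ R) - (X u + X v) ∈ lowI τ R 2 := by
  have hb := hs2 (hsX (R := R) u) (hsX v)
  have hb1 : ∀ s, (![X u, X v] : Fin 2 → MvPowerSeries τ R) s ∈ lowI τ R 1 := by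
    intro s; fin_cases s <;> exact X_mem_lowI_one _
  refine ⟨subst_mem_lowI hb hb1 (mem_lowI_one.mpr Φ.zero_constantCoeff), ?_⟩
  have : pl Φ (X u) (X v : MvPowerSeries τ R) - (X u + X v) =
      subst ![X u, X v] (Φ.toPowerSeries - (X 0 + X 1)) := by
    rw [subst_sub hb, subst_add hb, subst_X0 (hsX u) (hsX v), subst_X1 (hsX u) (hsX v)]
    rfl
  rw [this]
  refine subst_mem_lowI hb hb1 fun d hd => ?_
  classical
  rw [map_sub, map_add, sub_eq_zero]
  rw [degree_fin_two] at hd
  rcases (show (d 0 = 0 ∧ d 1 = 0) ∨ (d 0 = 1 ∧ d 1 = 0) ∨ (d 0 = 0 ∧ d 1 = 1) by omega) with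
    ⟨h0, h1⟩ | ⟨h0, h1⟩ | ⟨h0, h1⟩
  · have : d = 0 := by ext s; fin_cases s <;> assumption
    rw [this, coeff_zero_eq_constantCoeff_apply, coeff_zero_eq_constantCoeff_apply,
      coeff_zero_eq_constantCoeff_apply, Φ.zero_constantCoeff, constantCoeff_X, constantCoeff_X,
      add_zero]
  · have : d = Finsupp.single 0 1 := by ext s; fin_cases s <;> simp [h0, h1]
    rw [this, Φ.lin_coeff_X, coeff_index_single_X, coeff_index_single_X]
    simp
  · have : d = Finsupp.single 1 1 := by ext s; fin_cases s <;> simp [h0, h1]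
    rw [this, Φ.lin_coeff_Y, coeff_index_single_X, coeff_index_single_X]
    simp

/-- The head lemma: the lowest homogeneous part is determined by its marked coefficient. -/
theorem Coc.head {Φ : FormalGroup R} {Δ : MvPowerSeries (Fin 2) R} (hc : Coc Φ Δ)
    (hpΔ : ∀ d, p • coeff d Δ = 0) {N : ℕ} (hlow : Δ ∈ lowI _ R N)
    (hhead : 2 ≤ N → coeff (idx p N) Δ = 0) : Δ ∈ lowI _ R (N + 1) := by
  classical
  have hfst : ∀ i, coeff (e2 i 0) Δ = 0 := fun i => by
    rw [← coeff_subst_X0_zero Δ (e2 i 0) (e2_apply_one i 0), hc.zero, map_zero]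
  have hsym : ∀ i j, coeff (e2 i j) Δ = coeff (e2 j i) Δ := fun i j => by
    conv_lhs => rw [← hc.symm]
    exact coeff_subst_swap Δ i j
  intro d hd
  rcases Nat.lt_succ_iff_lt_or_eq.mp hd with h | h
  · exact hlow d h
  rw [e2_eta d]
  rw [degree_fin_two] at h
  rcases Nat.eq_zero_or_pos (d 1) with h1 | h1
  · rw [h1]; exact hfst _
  rcases Nat.eq_zero_or_pos (d 0) with h0 | h0
  · rw [h0, hsym]; exact hfst _
  -- the interior: values in the p-torsion subgroup
  let V : AddSubgroup R :=
    { carrier := {x | p • x = 0}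
      add_mem' := fun {x y} hx hy => by
        simp only [Set.mem_ofPred_eq] at *; rw [smul_add, hx, hy, add_zero]
      zero_mem' := smul_zero _
      neg_mem' := fun {x} hx => by
        simp only [Set.mem_ofPred_eq] at *; rw [smul_neg, hx, neg_zero] }
  let β : ℕ → V := fun i => ⟨coeff (e2 i (N - i)) Δ, hpΔ _⟩
  have hβ := cocycle_eq_zero p (V := V) (fun x => Subtype.ext (by rw [AddSubgroup.coe_nsmul]; exact x.2)) N β ?_ ?_ ?_
    (d 0) h0 (by omega)
  · have := congrArg Subtype.val hβ
    simpa [β, show N - d 0 = d 1 by omega] using this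
  · intro i hi hiN
    apply Subtype.ext
    simp only [β]
    rw [show N - (N - i) = i by omega]
    exact hsym _ _
  · intro i j k hi hj hk hsum
    apply Subtype.ext
    have H := congrArg (coeff (e3 0 1 2 i j k)) hc.cocycle
    rw [map_add, map_add] at H
    -- two vanishing terms
    have z1 : ∀ (u v w : Fin 3), u ≠ w → v ≠ w → ∀ (m : Fin 3 →₀ ℕ), m w ≠ 0 →
        coeff m (subst ![(X u : MvPowerSeries (Fin 3) R), X v] Δ) = 0 := by
      intro u v w huw hvw m hm
      rw [coeff_subst (hs2 (hsX u) (hsX v))]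
      refine finsum_eq_zero_of_forall_eq_zero fun e => ?_
      rw [Finsupp.prod_fintype _ _ (fun _ => pow_zero _), Fin.prod_univ_two]
      simp only [Matrix.cons_val_zero, Matrix.cons_val_one]
      rw [X_pow_eq, X_pow_eq, monomial_mul_monomial, coeff_monomial, if_neg, smul_zero]
      intro he
      apply hm
      rw [he]
      simp [huw.symm, hvw.symm]
    rw [z1 0 1 2 (by decide) (by decide) _ (by simp [e3]; omega),
      z1 1 2 0 (by decide) (by decide) _ (by simp [e3]; omega), zero_add, zero_add] at H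
    have hdeg : (e3 0 1 2 i j k).degree = N := by
      simp [e3, Finsupp.degree_single, hsum]
    have hflip : e3 0 1 2 i j k = e3 1 2 0 j k i := by
      simp only [e3]; abel
    have hL : coeff (e3 0 1 2 i j k) (subst ![pl Φ (X 0) (X 1), X 2] Δ) =
        (Nat.choose (i + j) i : R) * coeff (e2 (i + j) k) Δ := by
      have hP := hsubst_pl Φ (hsX (R := R) (0 : Fin 3)) (hsX 1)
      obtain ⟨hl, hl2⟩ := pl_sub_linear Φ (0 : Fin 3) 1
      have hterm : ∀ e : Fin 2 →₀ ℕ, e.degree = N → coeff (e3 0 1 2 i j k)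
          (e.prod fun s m => (![pl Φ (X 0) (X 1), X 2] : Fin 2 → MvPowerSeries (Fin 3) R) s ^ m)
          = if e 1 = k ∧ e 0 = i + j then (Nat.choose (e 0) i : R) else 0 := by
        intro e he
        rw [Finsupp.prod_fintype _ _ (fun _ => pow_zero _), Fin.prod_univ_two]
        simp only [Matrix.cons_val_zero, Matrix.cons_val_one]
        rw [← coeff_sum_pow_mul (R := R) (u := 0) (v := 1) (w := 2) (by decide) (by decide)
          (by decide)]
        rw [← sub_eq_zero, ← map_sub, ← sub_mul]
        refine lowI_mul (pow_sub_pow_mem hl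
          (add_mem (X_mem_lowI_one _) (X_mem_lowI_one _)) hl2 (e 0))
          (lowI_pow (X_mem_lowI_one (2 : Fin 3)) (e 1)) _ ?_
        rw [hdeg, ← he, degree_fin_two]; omega
      rw [coeff_subst (hs2 hP (hsX 2)), finsum_eq_single _ (e2 (i + j) k)]
      · rw [hterm _ (by rw [degree_e2]; omega), if_pos ⟨e2_apply_one _ _, e2_apply_zero _ _⟩,
          e2_apply_zero, smul_eq_mul, mul_comm]
      · intro e he
        rcases lt_trichotomy e.degree N with hlt | heq | hgt
        · rw [hlow e hlt, zero_smul]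
        · rw [hterm e heq, if_neg, smul_zero]
          rintro ⟨ha, hb⟩
          exact he (by rw [e2_eta e, ha, hb])
        · rw [prod_mem_lowI (fun s => by fin_cases s; exacts [hl, X_mem_lowI_one _]) e _
            (by rw [hdeg]; exact hgt), smul_zero]
    have hR : coeff (e3 0 1 2 i j k) (subst ![X 0, pl Φ (X 1) (X 2)] Δ) =
        (Nat.choose (j + k) j : R) * coeff (e2 i (j + k)) Δ := by
      have hP := hsubst_pl Φ (hsX (R := R) (1 : Fin 3)) (hsX 2)
      obtain ⟨hl, hl2⟩ := pl_sub_linear Φ (1 : Fin 3) 2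
      have hterm : ∀ e : Fin 2 →₀ ℕ, e.degree = N → coeff (e3 0 1 2 i j k)
          (e.prod fun s m => (![X 0, pl Φ (X 1) (X 2)] : Fin 2 → MvPowerSeries (Fin 3) R) s ^ m)
          = if e 0 = i ∧ e 1 = j + k then (Nat.choose (e 1) j : R) else 0 := by
        intro e he
        rw [Finsupp.prod_fintype _ _ (fun _ => pow_zero _), Fin.prod_univ_two]
        simp only [Matrix.cons_val_zero, Matrix.cons_val_one]
        rw [hflip, mul_comm, ← coeff_sum_pow_mul (R := R) (u := 1) (v := 2) (w := 0) (by decide)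
          (by decide) (by decide)]
        rw [← sub_eq_zero, ← map_sub, ← sub_mul]
        refine lowI_mul (pow_sub_pow_mem hl
          (add_mem (X_mem_lowI_one _) (X_mem_lowI_one _)) hl2 (e 1))
          (lowI_pow (X_mem_lowI_one (0 : Fin 3)) (e 0)) _ ?_
        rw [← hflip, hdeg, ← he, degree_fin_two]; omega
      rw [coeff_subst (hs2 (hsX 0) hP), finsum_eq_single _ (e2 i (j + k))]
      · rw [hterm _ (by rw [degree_e2]; omega), if_pos ⟨e2_apply_zero _ _, e2_apply_one _ _⟩,
          e2_apply_one, smul_eq_mul, mul_comm]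
      · intro e he
        rcases lt_trichotomy e.degree N with hlt | heq | hgt
        · rw [hlow e hlt, zero_smul]
        · rw [hterm e heq, if_neg, smul_zero]
          rintro ⟨ha, hb⟩
          exact he (by rw [e2_eta e, ha, hb])
        · rw [prod_mem_lowI (fun s => by fin_cases s; exacts [X_mem_lowI_one _, hl]) e _
            (by rw [hdeg]; exact hgt), smul_zero]
    rw [hL, hR] at H
    simp only [β, AddSubgroup.coe_nsmul, nsmul_eq_mul]
    rw [show N - (i + j) = k by omega, show N - i = j + k by omega]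
    exact H
  · exact Subtype.ext (hhead (by omega))

/-! The parameters. -/

variable (p n) in
/-- The lowest degree of the coboundary of X^e. -/
def dg (e : ℕ) : ℕ := if e = p ^ padicValNat p e then p ^ (n + padicValNat p e) else e

/-- Φ^e - X^e - Y^e. -/
def bnd (Φ : FormalGroup R) (e : ℕ) : MvPowerSeries (Fin 2) R :=
  Φ.toPowerSeries ^ e - X 0 ^ e - X 1 ^ e

/-- The lowest terms needed. -/
structure Heads (p n : ℕ) [Fact p.Prime] (a : Ideal R) (Φ : FormalGroup R)
    (B : Fin (n - 1) → MvPowerSeries (Fin 2) R) : Prop where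
  B_low : ∀ (i : Fin (n - 1)) d, d.degree < p ^ ((i : ℕ) + 1) → coeff d (B i) ∈ a
  B_head : ∀ i : Fin (n - 1), IsUnit (coeff (idx p (p ^ ((i : ℕ) + 1))) (B i))
  T_low : ∀ e, 1 ≤ e → ∀ d, d.degree < dg p n e → coeff d (bnd Φ e) ∈ a
  T_head : ∀ e, 1 ≤ e → IsUnit (coeff (idx p (dg p n e)) (bnd Φ e))

/-- The coboundary of η. -/
def cob (Φ : FormalGroup R) (η : PowerSeries R) : MvPowerSeries (Fin 2) R :=
  ev η Φ.toPowerSeries - ev η (X 0) - ev η (X 1)

/-- The variation of the error. -/
def vary (Φ : FormalGroup R) (B : Fin (n - 1) → MvPowerSeries (Fin 2) R)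
    (c : Fin (n - 1) → R) (η : PowerSeries R) : MvPowerSeries (Fin 2) R :=
  (∑ i, C (c i) * B i) + cob Φ η

theorem hsubst_group (Φ : FormalGroup R) : PowerSeries.HasSubst Φ.toPowerSeries :=
  PowerSeries.HasSubst.of_constantCoeff_zero Φ.zero_constantCoeff

theorem coeff_ev {τ : Type*} (η : PowerSeries R) {f : MvPowerSeries τ R}
    (hf : PowerSeries.HasSubst f) (d : τ →₀ ℕ) :
    coeff d (ev η f) = ∑ᶠ e : ℕ, PowerSeries.coeff e η * coeff d (f ^ e) := by
  change coeff d (PowerSeries.subst f η) = _
  rw [PowerSeries.coeff_subst hf]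
  rfl

theorem coeff_cob (Φ : FormalGroup R) (η : PowerSeries R) (d : Fin 2 →₀ ℕ) :
    coeff d (cob Φ η) = ∑ᶠ e : ℕ, PowerSeries.coeff e η * coeff d (bnd Φ e) := by
  have fin : ∀ {f : MvPowerSeries (Fin 2) R}, PowerSeries.HasSubst f →
      (fun e : ℕ => PowerSeries.coeff e η * coeff d (f ^ e)).HasFiniteSupport :=
    fun hf => PowerSeries.coeff_subst_finite hf η d
  simp only [bnd, map_sub, mul_sub]
  rw [finsum_sub_distrib, finsum_sub_distrib (fin (hsubst_group Φ)) (fin (hsX 0)),
    cob, map_sub, map_sub, coeff_ev η (hsubst_group Φ), coeff_ev η (hsX 0), coeff_ev η (hsX 1)]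
  · exact ((fin (hsubst_group Φ)).union (fin (hsX 0))).subset
      (Function.support_sub _ _)
  · exact fin (hsX 1)

theorem vary_add (Φ : FormalGroup R) (B : Fin (n - 1) → MvPowerSeries (Fin 2) R)
    (c c' : Fin (n - 1) → R) (η η' : PowerSeries R) :
    vary Φ B (c + c') (η + η') = vary Φ B c η + vary Φ B c' η' := by
  simp only [vary, cob, ev, subst_add (hs1 (hsX _)), subst_add (hs1 (hsubst_group Φ)),
    Pi.add_apply, map_add, add_mul, Finset.sum_add_distrib]
  ring

theorem vary_sub (Φ : FormalGroup R) (B : Fin (n - 1) → MvPowerSeries (Fin 2) R)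
    (c c' : Fin (n - 1) → R) (η η' : PowerSeries R) :
    vary Φ B (c - c') (η - η') = vary Φ B c η - vary Φ B c' η' := by
  rw [eq_sub_iff_add_eq, ← vary_add, sub_add_cancel, sub_add_cancel]

section tri

variable {a I : Ideal R} {Φ : FormalGroup R} {B : Fin (n - 1) → MvPowerSeries (Fin 2) R}

theorem vary_mem (c : Fin (n - 1) → R) (hc : ∀ i, c i ∈ I) (η : PowerSeries R)
    (hη : η ∈ cI Unit I) : vary Φ B c η ∈ cI _ I := by
  refine add_mem (Ideal.sum_mem _ fun i _ => Ideal.mul_mem_right _ _ (C_mem_cI (hc i))) ?_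
  exact sub_mem (sub_mem (subst_mem_cI (hs1 (hsubst_group Φ)) hη)
    (subst_mem_cI (hs1 (hsX 0)) hη)) (subst_mem_cI (hs1 (hsX 1)) hη)

theorem coeff_vary (c : Fin (n - 1) → R) (η : PowerSeries R) (d : Fin 2 →₀ ℕ) :
    coeff d (vary Φ B c η) = (∑ i, c i * coeff d (B i)) +
      ∑ᶠ e : ℕ, PowerSeries.coeff e η * coeff d (bnd Φ e) := by
  simp [vary, coeff_cob, map_sum, coeff_C_mul]

theorem coeff_mem_of_mem_cI {η : PowerSeries R} (hη : η ∈ cI Unit I) (e : ℕ) :
    PowerSeries.coeff e η ∈ I := mem_cI.mp hη _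

theorem mul_zero_of_mem (hIa : I * a = ⊥) {x y : R} (hx : x ∈ I) (hy : y ∈ a) : x * y = 0 := by
  have := Ideal.mul_mem_mul hx hy
  rwa [hIa, Ideal.mem_bot] at this

theorem vary_low (hIa : I * a = ⊥) (hH : Heads p n a Φ B) {c : Fin (n - 1) → R}
    (hc : ∀ i, c i ∈ I) {η : PowerSeries R} (hη : η ∈ cI Unit I)
    (hη0 : PowerSeries.constantCoeff η = 0) {N : ℕ}
    (hc0 : ∀ i : Fin (n - 1), p ^ ((i : ℕ) + 1) ≤ N → c i = 0)
    (he0 : ∀ e, 1 ≤ e → dg p n e ≤ N → PowerSeries.coeff e η = 0) :
    vary Φ B c η ∈ lowI _ R (N + 1) := by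
  intro d hd
  rw [coeff_vary, Finset.sum_eq_zero, finsum_eq_zero_of_forall_eq_zero, add_zero]
  · intro e
    rcases Nat.eq_zero_or_pos e with rfl | he
    · rw [PowerSeries.coeff_zero_eq_constantCoeff_apply, hη0, zero_mul]
    · by_cases h : dg p n e ≤ N
      · rw [he0 e he h, zero_mul]
      · exact mul_zero_of_mem hIa (coeff_mem_of_mem_cI hη e) (hH.T_low e he d (by omega))
  · intro i _
    by_cases h : p ^ ((i : ℕ) + 1) ≤ N
    · rw [hc0 i h, zero_mul]
    · exact mul_zero_of_mem hIa (hc i) (hH.B_low i d (by omega))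

theorem dg_ne (e : ℕ) (i : Fin (n - 1)) : dg p n e ≠ p ^ ((i : ℕ) + 1) := by
  have hp := (Fact.out : p.Prime)
  intro h
  unfold dg at h
  split_ifs at h with hpow
  · have := Nat.pow_right_injective hp.two_le h
    have := i.2
    omega
  · apply hpow
    rw [h, padicValNat.prime_pow]

theorem dg_injective {e e' : ℕ} (h : dg p n e = dg p n e') : e = e' := by
  have hp := (Fact.out : p.Prime)
  unfold dg at h
  split_ifs at h with h1 h2 h2
  · have := Nat.pow_right_injective hp.two_le h
    rw [h1, h2]; congr 1; omega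
  · exact absurd (by rw [← h, padicValNat.prime_pow]) h2
  · exact absurd (by rw [h, padicValNat.prime_pow]) h1
  · exact h

theorem two_le_dg (hn : 1 ≤ n) {e : ℕ} (he : 1 ≤ e) : 2 ≤ dg p n e := by
  have hp := (Fact.out : p.Prime)
  unfold dg
  split_ifs with h
  · calc 2 ≤ p := hp.two_le
      _ = p ^ 1 := (pow_one p).symm
      _ ≤ _ := Nat.pow_le_pow_right hp.pos (by omega)
  · by_contra h'
    have : e = 1 := by omega
    subst this
    simp at h

theorem two_le_pow_succ (i : ℕ) : 2 ≤ p ^ (i + 1) := by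
  have hp := (Fact.out : p.Prime)
  calc 2 ≤ p := hp.two_le
    _ = p ^ 1 := (pow_one p).symm
    _ ≤ _ := Nat.pow_le_pow_right hp.pos (by omega)

/-- Parameters of degree at most N are determined by the variation up to degree N. -/
theorem vary_injective (hn : 1 ≤ n) (hIa : I * a = ⊥) (hH : Heads p n a Φ B)
    {c : Fin (n - 1) → R} (hc : ∀ i, c i ∈ I) {η : PowerSeries R} (hη : η ∈ cI Unit I)
    (hη0 : PowerSeries.constantCoeff η = 0) {N : ℕ}
    (h : vary Φ B c η ∈ lowI _ R (N + 1)) :
    (∀ i : Fin (n - 1), p ^ ((i : ℕ) + 1) ≤ N → c i = 0) ∧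
      ∀ e, 1 ≤ e → dg p n e ≤ N → PowerSeries.coeff e η = 0 := by
  induction N with
  | zero =>
    constructor
    · intro i hi
      exact absurd hi (by have := two_le_pow_succ (p := p) (i : ℕ); omega)
    · intro e he hde
      exact absurd hde (by have := two_le_dg (p := p) hn he; omega)
  | succ N ih =>
    obtain ⟨hc0, he0⟩ := ih (lowI_anti (by omega) h)
    constructor
    · intro i hi
      rcases Nat.le_succ_iff.mp hi with hi | hi
      · exact hc0 i hi
      have h0 := h (idx p (p ^ ((i : ℕ) + 1))) (by rw [degree_idx (two_le_pow_succ (p := p) _)]; omega)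
      rw [coeff_vary, Finset.sum_eq_single i, finsum_eq_zero_of_forall_eq_zero, add_zero] at h0
      · exact (hH.B_head i).mul_left_eq_zero.mp h0
      · intro e
        rcases Nat.eq_zero_or_pos e with rfl | he
        · rw [PowerSeries.coeff_zero_eq_constantCoeff_apply, hη0, zero_mul]
        · rcases lt_trichotomy (dg p n e) (N + 1) with hlt | heq | hgt
          · rw [he0 e he (by omega), zero_mul]
          · exact absurd (heq.trans hi.symm) (dg_ne e i)
          · exact mul_zero_of_mem hIa (coeff_mem_of_mem_cI hη e)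
              (hH.T_low e he _ (by rw [degree_idx (two_le_pow_succ (p := p) _)]; omega))
      · intro j _ hj
        rcases lt_trichotomy (p ^ ((j : ℕ) + 1)) (N + 1) with hlt | heq | hgt
        · rw [hc0 j (by omega), zero_mul]
        · have := Nat.pow_right_injective (Fact.out : p.Prime).two_le (heq.trans hi.symm)
          exact absurd (Fin.ext (by omega)) hj
        · exact mul_zero_of_mem hIa (hc j)
            (hH.B_low j _ (by rw [degree_idx (two_le_pow_succ (p := p) _)]; omega))
      · intro hh; exact absurd (Finset.mem_univ i) hh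
    · intro e he hde
      rcases Nat.le_succ_iff.mp hde with hde | hde
      · exact he0 e he hde
      have h0 := h (idx p (dg p n e)) (by rw [degree_idx (two_le_dg (p := p) hn he)]; omega)
      rw [coeff_vary, Finset.sum_eq_zero, zero_add, finsum_eq_single _ e] at h0
      · exact (hH.T_head e he).mul_left_eq_zero.mp h0
      · intro e' hne
        rcases Nat.eq_zero_or_pos e' with rfl | he'
        · rw [PowerSeries.coeff_zero_eq_constantCoeff_apply, hη0, zero_mul]
        · rcases lt_trichotomy (dg p n e') (N + 1) with hlt | heq | hgt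
          · rw [he0 e' he' (by omega), zero_mul]
          · exact absurd (dg_injective (heq.trans hde.symm)) hne
          · exact mul_zero_of_mem hIa (coeff_mem_of_mem_cI hη e')
              (hH.T_low e' he' _ (by rw [degree_idx (two_le_dg (p := p) hn he)]; omega))
      · intro j _
        rcases lt_trichotomy (p ^ ((j : ℕ) + 1)) (N + 1) with hlt | heq | hgt
        · rw [hc0 j (by omega), zero_mul]
        · exact absurd (hde.trans heq.symm) (dg_ne e j)
        · exact mul_zero_of_mem hIa (hc j)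
            (hH.B_low j _ (by rw [degree_idx (two_le_dg (p := p) hn he)]; omega))

/-- Every degree at least two is the lowest degree of one parameter. -/
theorem degree_cover {N : ℕ} (hN : 2 ≤ N) :
    (∃ i : Fin (n - 1), p ^ ((i : ℕ) + 1) = N) ∨ ∃ e, 1 ≤ e ∧ dg p n e = N := by
  have hp := (Fact.out : p.Prime)
  by_cases hpow : N = p ^ padicValNat p N
  · have hs : 1 ≤ padicValNat p N := by
      rcases Nat.eq_zero_or_pos (padicValNat p N) with h | h
      · rw [h, pow_zero] at hpow; omega
      · exact h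
    by_cases hsn : padicValNat p N < n
    · exact Or.inl ⟨⟨padicValNat p N - 1, by omega⟩,
        by simp only; rw [show padicValNat p N - 1 + 1 = padicValNat p N by omega]; exact hpow.symm⟩
    · refine Or.inr ⟨p ^ (padicValNat p N - n), Nat.one_le_pow _ _ hp.pos, ?_⟩
      rw [dg, padicValNat.prime_pow, if_pos rfl,
        show n + (padicValNat p N - n) = padicValNat p N by omega]
      exact hpow.symm
  · exact Or.inr ⟨N, by omega, by rw [dg, if_neg hpow]⟩

/-- Existence: a cocycle all of whose variations are cocycles is absorbed. -/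
theorem exists_vary (hn : 1 ≤ n) (hIa : I * a = ⊥) (hpa : (p : R) ∈ a) (hH : Heads p n a Φ B)
    {Δ : MvPowerSeries (Fin 2) R} (hΔ : Δ ∈ cI _ I)
    (hcoc : ∀ c : Fin (n - 1) → R, (∀ i, c i ∈ I) → ∀ η : PowerSeries R, η ∈ cI Unit I →
      PowerSeries.constantCoeff η = 0 → Coc Φ (Δ + vary Φ B c η)) :
    ∃ c : Fin (n - 1) → R, (∀ i, c i ∈ I) ∧ ∃ η : PowerSeries R, η ∈ cI Unit I ∧
      PowerSeries.constantCoeff η = 0 ∧ Δ + vary Φ B c η = 0 := by
  classical
  have hptor : ∀ {c : Fin (n - 1) → R}, (∀ i, c i ∈ I) → ∀ {η : PowerSeries R},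
      η ∈ cI Unit I → ∀ d, p • coeff d (Δ + vary Φ B c η) = 0 := fun hc η hη d => by
    rw [nsmul_eq_mul, mul_comm]
    exact mul_zero_of_mem hIa (mem_cI.mp (add_mem hΔ (vary_mem _ hc η hη)) d) hpa
  have approx : ∀ N, ∃ c : Fin (n - 1) → R, (∀ i, c i ∈ I) ∧ ∃ η : PowerSeries R,
      η ∈ cI Unit I ∧ PowerSeries.constantCoeff η = 0 ∧
        Δ + vary Φ B c η ∈ lowI _ R N := by
    intro N
    induction N with
    | zero =>
      exact ⟨0, fun _ => I.zero_mem, 0, Ideal.zero_mem _, map_zero _, mem_lowI_zero _⟩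
    | succ N ih =>
      obtain ⟨c, hc, η, hη, hη0, hlow⟩ := ih
      by_cases hN : N < 2
      · exact ⟨c, hc, η, hη, hη0,
          (hcoc c hc η hη hη0).head (hptor hc hη) hlow (fun h => absurd h (by omega))⟩
      push Not at hN
      set x := coeff (idx p N) (Δ + vary Φ B c η) with hx
      have hxI : x ∈ I := mem_cI.mp (add_mem hΔ (vary_mem _ hc η hη)) _
      rcases degree_cover (p := p) (n := n) hN with ⟨i, hi⟩ | ⟨e, he, hde⟩
      · obtain ⟨u, hu⟩ := hH.B_head i
        let δ : Fin (n - 1) → R := fun j => if j = i then -x * ↑u⁻¹ else 0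
        have hδ : ∀ j, δ j ∈ I := fun j => by
          simp only [δ]; split_ifs
          · exact I.mul_mem_right _ (neg_mem hxI)
          · exact I.zero_mem
        have hz : (0 : PowerSeries R) ∈ cI Unit I := Ideal.zero_mem _
        have hδlow : vary Φ B δ 0 ∈ lowI _ R N := by
          have := vary_low hIa hH hδ hz (map_zero _) (N := N - 1) (fun j hj => by
            simp only [δ]; rw [if_neg]; rintro rfl; omega) (fun _ _ _ => map_zero _)
          rwa [show N - 1 + 1 = N by omega] at this
        have hη' : PowerSeries.constantCoeff (η + 0) = 0 := by rw [add_zero]; exact hη0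
        refine ⟨c + δ, fun j => I.add_mem (hc j) (hδ j), η + 0, add_mem hη hz, hη', ?_⟩
        refine (hcoc (c + δ) (fun j => I.add_mem (hc j) (hδ j)) _ (add_mem hη hz) hη').head
          (hptor (fun j => I.add_mem (hc j) (hδ j)) (add_mem hη hz)) ?_ (fun _ => ?_)
        · rw [vary_add, ← add_assoc]; exact add_mem hlow hδlow
        · rw [vary_add, ← add_assoc, map_add, ← hx, coeff_vary, finsum_eq_zero_of_forall_eq_zero
            (fun k => by rw [map_zero, zero_mul]), add_zero, Finset.sum_eq_single i]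
          · rw [show δ i = -x * ↑u⁻¹ from if_pos rfl, ← hi, ← hu, mul_assoc, Units.inv_mul, mul_one, add_neg_cancel]
          · intro j _ hj; simp only [δ]; rw [if_neg hj, zero_mul]
          · intro hh; exact absurd (Finset.mem_univ i) hh
      · obtain ⟨u, hu⟩ := hH.T_head e he
        let δ : PowerSeries R := PowerSeries.monomial e (-x * ↑u⁻¹)
        have hcd : ∀ k, PowerSeries.coeff k δ = if k = e then -x * ↑u⁻¹ else 0 := fun k =>
          PowerSeries.coeff_monomial k e _
        have hδ : δ ∈ cI Unit I := by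
          rw [mem_cI]; intro d
          have := hcd (d ())
          rw [PowerSeries.coeff_def (R := R) (s := d) rfl] at this
          rw [this]; split_ifs
          · exact I.mul_mem_right _ (neg_mem hxI)
          · exact I.zero_mem
        have hδ0 : PowerSeries.constantCoeff δ = 0 := by
          rw [← PowerSeries.coeff_zero_eq_constantCoeff_apply, hcd, if_neg (by omega)]
        have hz : ∀ j : Fin (n - 1), (0 : Fin (n - 1) → R) j ∈ I := fun _ => I.zero_mem
        have hδlow : vary Φ B 0 δ ∈ lowI _ R N := by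
          have := vary_low hIa hH hz hδ hδ0 (N := N - 1) (fun j hj => rfl) (fun k _ hk => by
            rw [hcd, if_neg]; rintro rfl; omega)
          rwa [show N - 1 + 1 = N by omega] at this
        have hc' : ∀ j, (c + 0) j ∈ I := fun j => I.add_mem (hc j) (hz j)
        have hη' : PowerSeries.constantCoeff (η + δ) = 0 := by rw [map_add, hη0, hδ0, add_zero]
        refine ⟨c + 0, hc', η + δ, add_mem hη hδ, hη', ?_⟩
        refine (hcoc _ hc' _ (add_mem hη hδ) hη').head (hptor hc' (add_mem hη hδ)) ?_ (fun _ => ?_)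
        · rw [vary_add, ← add_assoc]; exact add_mem hlow hδlow
        · rw [vary_add, ← add_assoc, map_add, ← hx, coeff_vary, finsum_eq_single _ e]
          · rw [hcd, if_pos rfl, ← hde, ← hu, mul_assoc, Units.inv_mul, mul_one]
            simp
          · intro k hk; rw [hcd, if_neg hk, zero_mul]
  choose c hc η hη hη0 hlow using approx
  -- glue
  let cc : Fin (n - 1) → R := fun i => c (p ^ ((i : ℕ) + 1) + 1) i
  let ee : PowerSeries R := PowerSeries.mk fun e =>
    if e = 0 then 0 else PowerSeries.coeff e (η (dg p n e + 1))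
  have hcc : ∀ i, cc i ∈ I := fun i => hc _ i
  have hee : ee ∈ cI Unit I := by
    rw [mem_cI]; intro d
    have : coeff d ee = PowerSeries.coeff (d ()) ee := by
      rw [PowerSeries.coeff_def (R := R) (s := d) rfl]
    rw [this, PowerSeries.coeff_mk]; split_ifs
    · exact I.zero_mem
    · exact coeff_mem_of_mem_cI (hη _) _
  have hee0 : PowerSeries.constantCoeff ee = 0 := by
    rw [← PowerSeries.coeff_zero_eq_constantCoeff_apply, PowerSeries.coeff_mk, if_pos rfl]
  refine ⟨cc, hcc, ee, hee, hee0, ?_⟩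
  have agree : ∀ M N, M ≤ N → (∀ i : Fin (n - 1), p ^ ((i : ℕ) + 1) < M → c N i = c M i) ∧
      ∀ e, 1 ≤ e → dg p n e < M →
        PowerSeries.coeff e (η N) = PowerSeries.coeff e (η M) := by
    intro M N hMN
    rcases M with _ | M
    · exact ⟨fun i hi => absurd hi (Nat.not_lt_zero _), fun e _ hde => absurd hde (Nat.not_lt_zero _)⟩
    have hdiff : vary Φ B (c N - c (M + 1)) (η N - η (M + 1)) ∈ lowI _ R (M + 1) := by
      have := sub_mem (lowI_anti hMN (hlow N)) (hlow (M + 1))
      rwa [add_sub_add_left_eq_sub, ← vary_sub] at this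
    obtain ⟨h1, h2⟩ := vary_injective hn hIa hH (c := c N - c (M + 1))
      (fun i => I.sub_mem (hc N i) (hc _ i)) (sub_mem (hη N) (hη (M + 1)))
      (by rw [map_sub, hη0, hη0, sub_zero]) hdiff
    exact ⟨fun i hi => sub_eq_zero.mp (h1 i (by omega)),
      fun e he hde => sub_eq_zero.mp (by rw [← map_sub]; exact h2 e he (by omega))⟩
  ext d
  rw [map_zero]
  set N := d.degree with hN
  have hsmall : vary Φ B (cc - c (N + 1)) (ee - η (N + 1)) ∈ lowI _ R (N + 1) := by
    refine vary_low hIa hH (fun i => I.sub_mem (hcc i) (hc _ i)) (sub_mem hee (hη _))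
      (by rw [map_sub, hee0, hη0, sub_zero]) (fun i hi => ?_) (fun e he hde => ?_)
    · rw [sub_eq_zero]
      exact ((agree _ (N + 1) (by omega)).1 i (by omega)).symm
    · rw [map_sub, sub_eq_zero, PowerSeries.coeff_mk, if_neg (by omega)]
      exact ((agree _ (N + 1) (by omega)).2 e he (by omega)).symm
  have := add_mem hsmall (hlow (N + 1))
  rw [show vary Φ B (cc - c (N + 1)) (ee - η (N + 1)) + (Δ + vary Φ B (c (N + 1)) (η (N + 1))) = Δ + vary Φ B cc ee by rw [vary_sub]; ring] at this
  exact this d (Nat.lt_succ_self _)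

end tri

end

end Vale.Agent.P217.Deform
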