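import Vale.Agent.P217.Deform.Step

/-!
Universality of a nice law: successive approximation along the powers of the ideal.
-/

namespace Vale.Agent.P217.Deform

noncomputable section

open MvPowerSeries

variable {p n : ℕ} [Fact p.Prime] {A : Type*} [CommRing A] [Algebra (W p n) A] {a : Ideal A}
  {F : FormalGroup (E p n)} {G : FormalGroup A} {m : PowerSeries (A ⧸ a)}

/-- A solution modulo a^j of the deformation problem. -/
def Sol (F : FormalGroup (E p n)) (a : Ideal A) (G : FormalGroup A) (m : PowerSeries (A ⧸ a))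
    (j : ℕ) (φ : E p n →ₐ[W p n] A) (ψ : PowerSeries A) : Prop :=
  (∀ i, φ (u p n i) ∈ a) ∧ PowerSeries.constantCoeff ψ = 0 ∧
    PowerSeries.map (Ideal.Quotient.mk a) ψ = m ∧
    HomEq (F.map ((Ideal.Quotient.mk (a ^ j)).comp (φ : E p n →+* A)))
      (G.map (Ideal.Quotient.mk (a ^ j))) (PowerSeries.map (Ideal.Quotient.mk (a ^ j)) ψ)

theorem map_map' {R S T : Type*} [CommRing R] [CommRing S] [CommRing T] (F : FormalGroup R)
    (f : R →+* S) (g : S →+* T) : (F.map f).map g = F.map (g.comp f) := by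
  apply FormalGroup.ext
  simp only [FormalGroup.map_toPowerSeries, MvPowerSeries.map_map]

theorem hsubst_map {τ R S : Type*} [CommRing R] [CommRing S] {f : MvPowerSeries τ R}
    (hf : PowerSeries.HasSubst f) (q : R →+* S) :
    PowerSeries.HasSubst (MvPowerSeries.map q f) := by
  rw [PowerSeries.HasSubst, constantCoeff_map]; exact hf.map q

theorem powerSeries_map_map {R S T : Type*} [CommRing R] [CommRing S] [CommRing T]
    (ψ : PowerSeries R) (f : R →+* S) (g : S →+* T) :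
    PowerSeries.map g (PowerSeries.map f ψ) = PowerSeries.map (g.comp f) ψ := by
  ext k; simp

theorem Sol.anti {i j : ℕ} (hij : i ≤ j) {φ : E p n →ₐ[W p n] A} {ψ : PowerSeries A}
    (h : Sol F a G m j φ ψ) : Sol F a G m i φ ψ := by
  obtain ⟨h1, h2, h3, h4⟩ := h
  have hq : (Ideal.Quotient.factor (Ideal.pow_le_pow_right hij)).comp (Ideal.Quotient.mk (a ^ j)) =
      Ideal.Quotient.mk (a ^ i) := RingHom.ext fun x => rfl
  have := h4.map (by rw [← PowerSeries.coeff_zero_eq_constantCoeff_apply, PowerSeries.coeff_map,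
    PowerSeries.coeff_zero_eq_constantCoeff_apply, h2, map_zero])
    (Ideal.Quotient.factor (Ideal.pow_le_pow_right hij))
  rw [map_map', map_map', powerSeries_map_map, ← RingHom.comp_assoc, hq] at this
  exact ⟨h1, h2, h3, this⟩

theorem map_eq_of_congr {J : Ideal A} {N : ℕ} (hN : a ^ N ≤ J) {φ φ' : E p n →ₐ[W p n] A}
    (hφ : ∀ i, φ (u p n i) ∈ a) (hφ' : ∀ i, φ' (u p n i) ∈ a)
    (h : ∀ i, φ (u p n i) - φ' (u p n i) ∈ J) :
    (Ideal.Quotient.mk J).comp (φ : E p n →+* A) = (Ideal.Quotient.mk J).comp (φ' : E p n →+* A) :=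
  RingHom.ext fun f => Ideal.Quotient.eq.mpr (algHom_congr φ φ' hN hφ hφ' h f)

section basic

variable (ha : ∀ c : W p n, WittVector.constantCoeff c = 0 → algebraMap (W p n) A c ∈ a)

include ha in
theorem mem_of_res_eq_zero {φ : E p n →ₐ[W p n] A} (hφ : ∀ i, φ (u p n i) ∈ a) {f : E p n}
    (hf : res p n f = 0) : φ f ∈ a := by
  have h := algHom_sub_algebraMap φ hφ f
  have h2 := a.add_mem h (ha _ hf)
  rwa [sub_add_cancel] at h2

theorem mul_map_eq_bot (j : ℕ) :
    (a ^ j).map (Ideal.Quotient.mk (a ^ (j + 1))) * a.map (Ideal.Quotient.mk (a ^ (j + 1))) = ⊥ := by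
  rw [← Ideal.map_mul, ← pow_succ, Ideal.map_quotient_self]

theorem map_mem_iff {j k : ℕ} (hjk : k ≤ j) {x : A} :
    Ideal.Quotient.mk (a ^ j) x ∈ (a ^ k).map (Ideal.Quotient.mk (a ^ j)) ↔ x ∈ a ^ k :=
  Ideal.mem_quotient_iff_mem (Ideal.pow_le_pow_right hjk)

theorem map_le {j : ℕ} (hj : 1 ≤ j) :
    (a ^ j).map (Ideal.Quotient.mk (a ^ (j + 1))) ≤ a.map (Ideal.Quotient.mk (a ^ (j + 1))) :=
  Ideal.map_mono (Ideal.pow_le_self (by omega))

end basic

variable (hF : IsNice p n F) (hn : 1 ≤ n) [IsAdicComplete a A]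
  (ha : ∀ c : W p n, WittVector.constantCoeff c = 0 → algebraMap (W p n) A c ∈ a)
  (hG : G.IsComm) (hm : IsUnit (PowerSeries.coeff 1 m))

theorem isUnit_of_isUnit_mk {x : A} (h : IsUnit (Ideal.Quotient.mk a x)) : IsUnit x := by
  obtain ⟨y, hy⟩ := Ideal.Quotient.mk_surjective (↑h.unit⁻¹ : A ⧸ a)
  have h1 : x * y - 1 ∈ a := by
    rw [← Ideal.Quotient.eq, map_mul, hy, map_one]
    exact h.mul_val_inv
  have h2 := Ideal.mem_jacobson_bot.mp (IsAdicComplete.le_jacobson_bot a h1) 1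
  rw [mul_one, sub_add_cancel] at h2
  exact (IsUnit.mul_iff.mp h2).1

omit [IsAdicComplete a A] in
/-- The error of a solution and its variations, in A / a^(j+1). -/
theorem sol_err {j : ℕ} {φ : E p n →ₐ[W p n] A} {ψ : PowerSeries A} (h : Sol F a G m j φ ψ)
    (hj : 1 ≤ j) :
    ∃ Δ ∈ cI (Fin 2) ((a ^ j).map (Ideal.Quotient.mk (a ^ (j + 1)))),
      IsErr (F.map ((Ideal.Quotient.mk (a ^ (j + 1))).comp (φ : E p n →+* A)))
        (G.map (Ideal.Quotient.mk (a ^ (j + 1))))
        (PowerSeries.map (Ideal.Quotient.mk (a ^ (j + 1))) ψ) Δ := by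
  obtain ⟨-, hψ, -, h4⟩ := h
  set q := Ideal.Quotient.mk (a ^ (j + 1))
  set Φ := F.map (φ : E p n →+* A)
  have p0 := hsubst_ev hψ (hsX (R := A) (0 : Fin 2))
  have p1 := hsubst_ev hψ (hsX (R := A) (1 : Fin 2))
  have hD : ev ψ Φ.toPowerSeries - pl G (ev ψ (X 0)) (ev ψ (X 1)) ∈ cI (Fin 2) (a ^ j) := by
    rw [← map_mk_eq_iff, map_ev _ ψ (hsubst_group Φ), map_pl _ G p0 p1, map_ev _ ψ (hsX 0),
      map_ev _ ψ (hsX 1), MvPowerSeries.map_X, MvPowerSeries.map_X]
    simp only [Φ, ← FormalGroup.map_toPowerSeries, map_map']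
    exact h4
  have hD' := map_mem_cI q (J := (a ^ j).map q) (fun x hx => Ideal.mem_map_of_mem q hx) hD
  rw [map_sub] at hD'
  obtain ⟨Δ, hΔ, he⟩ := exists_small (mul_map_eq_bot j) (map_le hj) (G.map q)
    (c := MvPowerSeries.map q (pl G (ev ψ (X 0)) (ev ψ (X 1))))
    (d := MvPowerSeries.map q (ev ψ Φ.toPowerSeries))
    (by rw [map_pl q G p0 p1]; exact hsubst_pl _ (hsubst_map p0 _) (hsubst_map p1 _)) hD'
  refine ⟨Δ, hΔ, ?_⟩
  rw [map_ev q ψ (hsubst_group Φ), map_pl q G p0 p1, map_ev q ψ (hsX 0), map_ev q ψ (hsX 1),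
    MvPowerSeries.map_X, MvPowerSeries.map_X] at he
  simp only [Φ, ← FormalGroup.map_toPowerSeries, map_map'] at he
  exact he.symm

omit [IsAdicComplete a A] in
/-- The first order change of the specialisation. -/
theorem first_order_eq {j : ℕ} {φ φ' : E p n →ₐ[W p n] A} (hφ : ∀ i, φ (u p n i) ∈ a)
    (hφ' : ∀ i, φ' (u p n i) ∈ a) (h : ∀ i, φ' (u p n i) - φ (u p n i) ∈ a ^ j) (f : E p n) :
    (Ideal.Quotient.mk (a ^ (j + 1))).comp (φ' : E p n →+* A) f =
      (Ideal.Quotient.mk (a ^ (j + 1))).comp (φ : E p n →+* A) f +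
      ∑ i, Ideal.Quotient.mk (a ^ (j + 1)) (φ' (u p n i) - φ (u p n i)) *
        (Ideal.Quotient.mk (a ^ (j + 1))).comp (φ : E p n →+* A)
          (MvPowerSeries.C (coeff (Finsupp.single i 1) f)) := by
  have hC : ∀ c : W p n, φ (MvPowerSeries.C c) = algebraMap (W p n) A c := φ.commutes
  simp only [RingHom.comp_apply, RingHom.coe_coe, hC, ← map_mul, ← map_sum, ← map_add]
  rw [Ideal.Quotient.eq, ← sub_sub]
  exact algHom_first_order φ φ' hφ hφ' h f

include hF hn ha hG hm

/-- Two solutions modulo a^j agree modulo a^j. -/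
theorem sol_unique {j : ℕ} (hj : 1 ≤ j) {φ φ' : E p n →ₐ[W p n] A} {ψ ψ' : PowerSeries A}
    (h : Sol F a G m j φ ψ) (h' : Sol F a G m j φ' ψ') :
    (∀ i, φ' (u p n i) - φ (u p n i) ∈ a ^ j) ∧
      ∀ k, PowerSeries.coeff k ψ' - PowerSeries.coeff k ψ ∈ a ^ j := by
  induction j with
  | zero => omega
  | succ j ih =>
    rcases Nat.eq_zero_or_pos j with rfl | hj0
    · refine ⟨fun i => by simpa using a.sub_mem (h'.1 i) (h.1 i), fun k => ?_⟩
      rw [zero_add, pow_one, ← Ideal.Quotient.eq, ← PowerSeries.coeff_map, ← PowerSeries.coeff_map,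
        h.2.2.1, h'.2.2.1]
    obtain ⟨hc0, hk0⟩ := ih hj0 (h.anti (by omega)) (h'.anti (by omega))
    obtain ⟨hφ, hψ0, hψm, heq⟩ := h
    obtain ⟨hφ', hψ0', hψm', heq'⟩ := h'
    set q := Ideal.Quotient.mk (a ^ (j + 1))
    set I := (a ^ j).map q
    have hIa := mul_map_eq_bot (a := a) j
    have hI := map_le (a := a) hj0
    have hcomm := hF.comm
    have : (G.map q).IsComm := isComm_map G q
    set ρ := q.comp (φ : E p n →+* A)
    set ρ' := q.comp (φ' : E p n →+* A)
    let c : Fin (n - 1) → A ⧸ a ^ (j + 1) := fun i => q (φ' (u p n i) - φ (u p n i))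
    have hc : ∀ i, c i ∈ I := fun i => Ideal.mem_map_of_mem q (hc0 i)
    set B : Fin (n - 1) → MvPowerSeries (Fin 2) (A ⧸ a ^ (j + 1)) :=
      fun i => MvPowerSeries.map ρ (bE p n F i)
    have hΦ' := map_eq_pl (F := F) hIa hI ρ ρ' c hc (first_order_eq hφ hφ' hc0)
    have hψR : PowerSeries.constantCoeff (PowerSeries.map q ψ) = 0 := by
      rw [← PowerSeries.coeff_zero_eq_constantCoeff_apply, PowerSeries.coeff_map,
        PowerSeries.coeff_zero_eq_constantCoeff_apply, hψ0, map_zero]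
    have hψR' : PowerSeries.constantCoeff (PowerSeries.map q ψ') = 0 := by
      rw [← PowerSeries.coeff_zero_eq_constantCoeff_apply, PowerSeries.coeff_map,
        PowerSeries.coeff_zero_eq_constantCoeff_apply, hψ0', map_zero]
    have hsψ : PowerSeries.HasSubst (PowerSeries.map q ψ) :=
      PowerSeries.HasSubst.of_constantCoeff_zero' hψR
    obtain ⟨η, hη, hηe⟩ := exists_small hIa hI (G.map q)
      (c := (PowerSeries.map q ψ : MvPowerSeries Unit (A ⧸ a ^ (j + 1))))
      (d := (PowerSeries.map q ψ' : MvPowerSeries Unit (A ⧸ a ^ (j + 1)))) hsψ (by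
        rw [mem_cI]
        intro d
        rw [map_sub, ← PowerSeries.coeff_def (R := A ⧸ a ^ (j + 1)) (s := d) rfl,
          PowerSeries.coeff_map, PowerSeries.coeff_map, ← map_sub]
        exact Ideal.mem_map_of_mem q (hk0 _))
    have hη0 : PowerSeries.constantCoeff η = 0 :=
      constantCoeff_small_eq_zero hIa hI (G.map q) hψR hη (by rw [hηe]; exact hψR')
    have hp : pl (G.map q) (ev (PowerSeries.map q ψ) (X 0))
        (ev (PowerSeries.map q ψ) (X (1 : Fin 2))) = ev (PowerSeries.map q ψ) (F.map ρ).toPowerSeries :=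
      heq.symm
    have herr : IsErr (F.map ρ) (G.map q) (PowerSeries.map q ψ) 0 := by
      rw [IsErr, pl_zero _ (hsubst_pl _ (hsubst_ev hψR (hsX 0)) (hsubst_ev hψR (hsX 1)))]
      exact heq
    have hv := err_vary hIa hI hψR (Ideal.zero_mem _) herr c hc hη hη0 hΦ' (B := B)
    rw [hηe, zero_add] at hv
    set v := vary (F.map ρ) B (fun i => PowerSeries.coeff 1 (PowerSeries.map q ψ) * c i) η
    have hcI : ∀ i, PowerSeries.coeff 1 (PowerSeries.map q ψ) * c i ∈ I :=
      fun i => Ideal.mul_mem_left _ _ (hc i)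
    have hv0 : v = 0 := by
      have pp := hsubst_pl (G.map q) (hsubst_ev hψR' (hsX (R := A ⧸ a ^ (j + 1)) (0 : Fin 2)))
        (hsubst_ev hψR' (hsX 1))
      refine pl_small_cancel hIa hI (G.map q) pp (vary_mem _ hcI η hη) (Ideal.zero_mem _) ?_
      rw [pl_zero _ pp]
      exact hv.symm.trans heq'
    have hH : Heads p n (a.map q) (F.map ρ) B :=
      heads_of_hom hF hn ρ fun f hf => Ideal.mem_map_of_mem q (mem_of_res_eq_zero ha hφ hf)
    have hinj := fun N => vary_injective hn hIa hH hcI hη hη0 (N := N) (by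
      change v ∈ _; rw [hv0]; exact zero_mem _)
    have hu : IsUnit (PowerSeries.coeff 1 (PowerSeries.map q ψ)) := by
      rw [PowerSeries.coeff_map]
      refine (isUnit_of_isUnit_mk (a := a) ?_).map q
      rw [← PowerSeries.coeff_map, hψm]
      exact hm
    constructor
    · intro i
      have := hu.mul_right_eq_zero.mp ((hinj (p ^ ((i : ℕ) + 1))).1 i le_rfl)
      exact Ideal.Quotient.eq_zero_iff_mem.mp this
    · intro k
      have h0 : (η : PowerSeries (A ⧸ a ^ (j + 1))) = 0 := by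
        refine PowerSeries.ext fun e => ?_
        rw [map_zero]
        rcases Nat.eq_zero_or_pos e with rfl | he
        · rw [PowerSeries.coeff_zero_eq_constantCoeff_apply]; exact hη0
        · exact (hinj (dg p n e)).2 e he le_rfl
      rw [h0, pl_zero _ hsψ] at hηe
      rw [← Ideal.Quotient.eq, ← PowerSeries.coeff_map, ← PowerSeries.coeff_map]
      exact congrArg (PowerSeries.coeff k) hηe.symm

/-- A solution modulo a^j can be improved to one modulo a^(j+1). -/
theorem sol_improve {j : ℕ} (hj : 1 ≤ j) {φ : E p n →ₐ[W p n] A} {ψ : PowerSeries A}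
    (h : Sol F a G m j φ ψ) : ∃ φ' ψ', Sol F a G m (j + 1) φ' ψ' := by
  obtain ⟨Δ, hΔ, herr⟩ := sol_err h hj
  obtain ⟨hφ, hψ0, hψm, -⟩ := h
  set q := Ideal.Quotient.mk (a ^ (j + 1))
  set I := (a ^ j).map q
  have hIa := mul_map_eq_bot (a := a) j
  have hI := map_le (a := a) hj
  have hcomm := hF.comm
  have : (G.map q).IsComm := isComm_map G q
  set ρ := q.comp (φ : E p n →+* A)
  set B : Fin (n - 1) → MvPowerSeries (Fin 2) (A ⧸ a ^ (j + 1)) :=
    fun i => MvPowerSeries.map ρ (bE p n F i)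
  have hψR : PowerSeries.constantCoeff (PowerSeries.map q ψ) = 0 := by
    rw [← PowerSeries.coeff_zero_eq_constantCoeff_apply, PowerSeries.coeff_map,
      PowerSeries.coeff_zero_eq_constantCoeff_apply, hψ0, map_zero]
  have hH : Heads p n (a.map q) (F.map ρ) B :=
    heads_of_hom hF hn ρ fun f hf => Ideal.mem_map_of_mem q (mem_of_res_eq_zero ha hφ hf)
  have hpa : (p : A ⧸ a ^ (j + 1)) ∈ a.map q := by
    have h1 : algebraMap (W p n) A (p : W p n) ∈ a :=
      ha _ (by rw [map_natCast, CharP.cast_eq_zero])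
    rw [map_natCast] at h1
    simpa using Ideal.mem_map_of_mem q h1
  obtain ⟨u1, hu1⟩ : IsUnit (PowerSeries.coeff 1 (PowerSeries.map q ψ)) := by
    rw [PowerSeries.coeff_map]
    refine (isUnit_of_isUnit_mk (a := a) ?_).map q
    rw [← PowerSeries.coeff_map, hψm]
    exact hm
  -- lifting of parameters
  have lift : ∀ c : Fin (n - 1) → A ⧸ a ^ (j + 1), (∀ i, c i ∈ I) →
      ∃ φ' : E p n →ₐ[W p n] A, (∀ i, φ' (u p n i) ∈ a) ∧
        (F.map (q.comp (φ' : E p n →+* A))).toPowerSeries = pl (F.map ρ) (F.map ρ).toPowerSeries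
          (∑ i, MvPowerSeries.C (c i) * B i) := by
    intro c hc
    choose ε hε hεc using fun i =>
      (Ideal.mem_map_iff_of_surjective q Ideal.Quotient.mk_surjective).mp (hc i)
    have hx : ∀ i, φ (u p n i) + ε i ∈ a := fun i =>
      a.add_mem (hφ i) (Ideal.pow_le_self (by omega) (hε i))
    refine ⟨evalHom hx, fun i => by rw [evalHom_u]; exact hx i, ?_⟩
    refine map_eq_pl hIa hI ρ _ c hc fun f => ?_
    have hd : ∀ i, evalHom hx (u p n i) - φ (u p n i) ∈ a ^ j := fun i => by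
      rw [evalHom_u, add_sub_cancel_left]; exact hε i
    rw [first_order_eq hφ (fun i => by rw [evalHom_u]; exact hx i) hd]
    simp only [evalHom_u, add_sub_cancel_left, ← hεc]
    rfl
  -- every variation of the error is a cocycle
  have hcoc : ∀ c : Fin (n - 1) → A ⧸ a ^ (j + 1), (∀ i, c i ∈ I) →
      ∀ η : PowerSeries (A ⧸ a ^ (j + 1)), η ∈ cI Unit I → PowerSeries.constantCoeff η = 0 →
        Coc (F.map ρ) (Δ + vary (F.map ρ) B c η) := by
    intro c hc η hη hη0
    have hc' : ∀ i, ↑u1⁻¹ * c i ∈ I := fun i => Ideal.mul_mem_left _ _ (hc i)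
    obtain ⟨φ', -, hΦ'⟩ := lift _ hc'
    have h2 := err_vary hIa hI hψR hΔ herr _ hc' hη hη0 hΦ'
    simp only [← hu1, ← mul_assoc, Units.mul_inv, one_mul] at h2
    have : (F.map (q.comp (φ' : E p n →+* A))).IsComm := isComm_map F _
    refine coc_of_err hIa hI (constantCoeff_pl_unit _ hψR hη0)
      (add_mem hΔ (vary_mem _ hc η hη)) h2 ?_
    rw [hΦ', pl_small hIa hI _ (hsubst_group _)
      (Ideal.sum_mem _ fun i _ => Ideal.mul_mem_right _ _ (C_mem_cI (hc' i))), add_sub_cancel_left]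
    exact Ideal.mul_mem_right _ _ (cI_mono hI
      (Ideal.sum_mem _ fun i _ => Ideal.mul_mem_right _ _ (C_mem_cI (hc' i))))
  obtain ⟨c, hc, η, hη, hη0, hzero⟩ := exists_vary hn hIa hpa hH hΔ hcoc
  have hc' : ∀ i, ↑u1⁻¹ * c i ∈ I := fun i => Ideal.mul_mem_left _ _ (hc i)
  obtain ⟨φ', hφ', hΦ'⟩ := lift _ hc'
  have h2 := err_vary hIa hI hψR hΔ herr _ hc' hη hη0 hΦ'
  simp only [← hu1, ← mul_assoc, Units.mul_inv, one_mul] at h2
  rw [hzero] at h2
  -- lift η
  have hcoef : ∀ k, ∃ x ∈ a ^ j, q x = PowerSeries.coeff k η := fun k =>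
    (Ideal.mem_map_iff_of_surjective q Ideal.Quotient.mk_surjective).mp (coeff_mem_of_mem_cI hη k)
  choose e he hqe using hcoef
  let η' : PowerSeries A := PowerSeries.mk fun k => if k = 0 then 0 else e k
  have hη'0 : PowerSeries.constantCoeff η' = 0 := by
    rw [← PowerSeries.coeff_zero_eq_constantCoeff_apply, PowerSeries.coeff_mk, if_pos rfl]
  have hη'map : PowerSeries.map q η' = η := by
    refine PowerSeries.ext fun k => ?_
    rw [PowerSeries.coeff_map, PowerSeries.coeff_mk]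
    split_ifs with hk
    · rw [hk, map_zero, PowerSeries.coeff_zero_eq_constantCoeff_apply, hη0]
    · exact hqe k
  have hη'a : PowerSeries.map (Ideal.Quotient.mk a) η' = 0 := by
    refine PowerSeries.ext fun k => ?_
    rw [PowerSeries.coeff_map, PowerSeries.coeff_mk, map_zero]
    split_ifs
    · exact map_zero _
    · exact Ideal.Quotient.eq_zero_iff_mem.mpr (Ideal.pow_le_self (by omega) (he k))
  have hsψ : PowerSeries.HasSubst ψ := PowerSeries.HasSubst.of_constantCoeff_zero' hψ0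
  have hsη : PowerSeries.HasSubst η' := PowerSeries.HasSubst.of_constantCoeff_zero' hη'0
  refine ⟨φ', pl (τ := Unit) G ψ η', hφ', constantCoeff_pl_unit G hψ0 hη'0, ?_, ?_⟩
  · refine (map_pl (τ := Unit) (Ideal.Quotient.mk a) G hsψ hsη).trans ?_
    change pl (τ := Unit) _ (PowerSeries.map _ ψ) (PowerSeries.map _ η') = m
    rw [hη'a, hψm]
    refine pl_zero _ ?_
    rw [← hψm]
    exact hsubst_map hsψ _
  · have hmap : PowerSeries.map q (pl (τ := Unit) G ψ η') =
        pl (τ := Unit) (G.map q) (PowerSeries.map q ψ) η := by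
      conv_rhs => rw [← hη'map]
      exact map_pl (τ := Unit) q G hsψ hsη
    have h0 := constantCoeff_pl_unit (G.map q) hψR hη0
    rw [IsErr, pl_zero _ (hsubst_pl _ (hsubst_ev h0 (hsX 0)) (hsubst_ev h0 (hsX 1)))] at h2
    rw [HomEq, hmap]
    exact h2

end

end Vale.Agent.P217.Deform
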